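import Mathlib

/-! # P076 / H23 : arithmetic of the sum over levels (`B = 2^40`) -/

namespace Vale.Agent.P076.H23

lemma castD (j : ℕ) : ((((2 ^ 40) ^ j : ℕ) : ℝ)) = (2 : ℝ) ^ (40 * j) := by
  rw [← pow_mul, Nat.cast_pow, Nat.cast_ofNat]

lemma lev1 {R ρ δ : ℝ} (hR : 0 ≤ R) (hρ : 0 ≤ ρ) (hδ : δ ≤ 1 / 75) (j : ℕ) :
    (16 : ℝ) ^ j * (((((2 ^ 40) ^ j : ℕ) : ℝ)) * ((((((2 ^ 40) ^ j : ℕ) : ℝ)) * R) ^ (2 / 3 : ℝ)) *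
      ((((2 ^ 40) ^ j : ℕ) : ℝ) ^ 2)⁻¹ * (((((2 ^ 40) ^ j : ℕ) : ℝ)) * ρ) ^ δ) ≤ (1 / 2) ^ j * (R ^ (2 / 3 : ℝ) * ρ ^ δ) := by
  set D : ℝ := (((2 ^ 40) ^ j : ℕ) : ℝ) with hD
  have hDe : D = ((2 : ℝ) ^ (10 * j)) ^ 4 := by
    rw [hD, castD, ← pow_mul]; congr 1; ring
  have hD1 : 1 ≤ D := by rw [hDe]; exact one_le_pow₀ (one_le_pow₀ (by norm_num))
  have hD0 : 0 < D := by linarith
  rw [Real.mul_rpow hD0.le hR, Real.mul_rpow hD0.le hρ]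
  have e : (16 : ℝ) ^ j * (D * (D ^ (2 / 3 : ℝ) * R ^ (2 / 3 : ℝ)) * (D ^ 2)⁻¹ * (D ^ δ * ρ ^ δ)) =
      ((16 : ℝ) ^ j * (D ^ (2 / 3 : ℝ) * D ^ δ * D⁻¹)) * (R ^ (2 / 3 : ℝ) * ρ ^ δ) := by
    field_simp
  rw [e]
  refine mul_le_mul_of_nonneg_right ?_ (by positivity)
  have h1 : D ^ (2 / 3 : ℝ) * D ^ δ * D⁻¹ = D ^ (2 / 3 + δ - 1) := by
    rw [← Real.rpow_neg_one D, ← Real.rpow_add hD0, ← Real.rpow_add hD0]; congr 1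
  have h2 : D ^ (2 / 3 + δ - 1) ≤ D ^ (-(1 / 4) : ℝ) := Real.rpow_le_rpow_of_exponent_le hD1 (by linarith)
  have h3 : D ^ (-(1 / 4) : ℝ) = ((2 : ℝ) ^ (10 * j))⁻¹ := by
    rw [Real.rpow_neg hD0.le, hDe, ← Real.rpow_natCast _ 4, ← Real.rpow_mul (by positivity)]
    norm_num
  rw [h1]
  calc (16 : ℝ) ^ j * D ^ (2 / 3 + δ - 1) ≤ 16 ^ j * ((2 : ℝ) ^ (10 * j))⁻¹ := by
        rw [← h3]; exact mul_le_mul_of_nonneg_left h2 (by positivity)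
    _ ≤ (1 / 2) ^ j := by
        rw [← div_eq_mul_inv, div_le_iff₀ (by positivity), pow_mul, ← mul_pow]
        exact pow_le_pow_left₀ (by norm_num) (by norm_num) j

lemma pow32_le {R : ℝ} (hR : 1 ≤ R) (j : ℕ) (h : ((((2 ^ 40) ^ j : ℕ) : ℝ)) ^ 5 ≤ R ^ 2) :
    (32 : ℝ) ^ j ≤ R ^ (1 / 20 : ℝ) := by
  have h1 : ((32 : ℝ) ^ j) ^ 40 ≤ R ^ 2 := by
    refine le_trans (le_of_eq ?_) h
    rw [castD, show (32 : ℝ) = 2 ^ 5 by norm_num, ← pow_mul, ← pow_mul, ← pow_mul]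
    congr 1; ring
  have h2 : (((32 : ℝ) ^ j) ^ 40) ^ (1 / 40 : ℝ) ≤ (R ^ 2) ^ (1 / 40 : ℝ) := Real.rpow_le_rpow (by positivity) h1 (by norm_num)
  rw [← Real.rpow_natCast _ 40, ← Real.rpow_mul (by positivity), ← Real.rpow_natCast R 2, ← Real.rpow_mul (by linarith)] at h2
  norm_num at h2 ⊢
  exact h2

lemma lev2 {R : ℝ} (hR : 1 ≤ R) (j : ℕ) (h : ((((2 ^ 40) ^ j : ℕ) : ℝ)) ^ 5 ≤ R ^ 2) :
    (16 : ℝ) ^ j * (R / ((((2 ^ 40) ^ j : ℕ) : ℝ)) * (R / ((((2 ^ 40) ^ j : ℕ) : ℝ)) ^ 2) ^ (-(12 / 25) : ℝ)) ≤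
      (1 / 2) ^ j * R ^ (16 / 25 : ℝ) := by
  have h32 := pow32_le hR j h
  set D : ℝ := (((2 ^ 40) ^ j : ℕ) : ℝ) with hD
  have hD1 : 1 ≤ D := by rw [hD]; exact_mod_cast Nat.one_le_pow _ _ (by norm_num)
  have hD0 : 0 < D := by linarith
  have hR0 : 0 < R := by linarith
  have e : R / D * (R / D ^ 2) ^ (-(12 / 25) : ℝ) = R ^ (13 / 25 : ℝ) * D ^ (-(1 / 25) : ℝ) := by
    rw [Real.div_rpow hR0.le (by positivity), ← Real.rpow_natCast D 2, ← Real.rpow_mul hD0.le]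
    have e1 : R * R ^ (-(12 / 25) : ℝ) = R ^ (13 / 25 : ℝ) := by
      nth_rewrite 1 [← Real.rpow_one R]
      rw [← Real.rpow_add hR0]; norm_num
    have e2 : D * D ^ (((2 : ℕ) : ℝ) * (-(12 / 25))) = (D ^ (-(1 / 25) : ℝ))⁻¹ := by
      nth_rewrite 1 [← Real.rpow_one D]
      rw [← Real.rpow_add hD0, ← Real.rpow_neg hD0.le]; norm_num
    calc R / D * (R ^ (-(12 / 25) : ℝ) / D ^ (((2 : ℕ) : ℝ) * (-(12 / 25)))) =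
        (R * R ^ (-(12 / 25) : ℝ)) / (D * D ^ (((2 : ℕ) : ℝ) * (-(12 / 25)))) := by ring
      _ = _ := by rw [e1, e2, div_inv_eq_mul]
  rw [e]
  have h1 : D ^ (-(1 / 25) : ℝ) ≤ 1 := Real.rpow_le_one_of_one_le_of_nonpos hD1 (by norm_num)
  have h2 : R ^ (13 / 25 : ℝ) * D ^ (-(1 / 25) : ℝ) ≤ R ^ (13 / 25 : ℝ) := mul_le_of_le_one_right (by positivity) h1
  have h3 : (16 : ℝ) ^ j = (1 / 2) ^ j * 32 ^ j := by rw [← mul_pow]; norm_num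
  rw [h3, mul_assoc]
  refine mul_le_mul_of_nonneg_left ?_ (by positivity)
  calc (32 : ℝ) ^ j * (R ^ (13 / 25 : ℝ) * D ^ (-(1 / 25) : ℝ)) ≤ R ^ (1 / 20 : ℝ) * R ^ (13 / 25 : ℝ) :=
        mul_le_mul h32 h2 (by positivity) (by positivity)
    _ = R ^ (1 / 20 + 13 / 25 : ℝ) := by rw [← Real.rpow_add hR0]
    _ ≤ R ^ (16 / 25 : ℝ) := Real.rpow_le_rpow_of_exponent_le hR (by norm_num)

lemma lev3 {R : ℝ} (hR : 1 ≤ R) (J : ℕ) (h : R ^ 2 ≤ ((((2 ^ 40) ^ (J + 1) : ℕ) : ℝ)) ^ 5) :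
    (16 : ℝ) ^ J * (R / ((((2 ^ 40) ^ J : ℕ) : ℝ))) ≤ 2 ^ 36 * R ^ (16 / 25 : ℝ) := by
  have hR0 : 0 < R := by linarith
  have h1 : R ^ (9 / 25 : ℝ) ≤ (2 : ℝ) ^ (36 * (J + 1)) := by
    have h2 : (R ^ 2) ^ (9 / 50 : ℝ) ≤ (((((2 ^ 40) ^ (J + 1) : ℕ) : ℝ)) ^ 5) ^ (9 / 50 : ℝ) :=
      Real.rpow_le_rpow (by positivity) h (by norm_num)
    have e1 : (R ^ 2) ^ (9 / 50 : ℝ) = R ^ (9 / 25 : ℝ) := by
      rw [← Real.rpow_natCast R 2, ← Real.rpow_mul hR0.le]; norm_num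
    have e2 : (((((2 ^ 40) ^ (J + 1) : ℕ) : ℝ)) ^ 5) ^ (9 / 50 : ℝ) = (2 : ℝ) ^ (36 * (J + 1)) := by
      have e3 : ((((2 ^ 40) ^ (J + 1) : ℕ) : ℝ)) ^ 5 = ((2 : ℝ) ^ (4 * (J + 1))) ^ 50 := by
        rw [castD, ← pow_mul, ← pow_mul]; congr 1; ring
      rw [e3, ← Real.rpow_natCast _ 50, ← Real.rpow_mul (by positivity)]
      have e4 : (((50 : ℕ) : ℝ) * (9 / 50)) = ((9 : ℕ) : ℝ) := by norm_num
      rw [e4, Real.rpow_natCast, ← pow_mul]; congr 1; ring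
    rwa [e1, e2] at h2
  have h2 : R = R ^ (16 / 25 : ℝ) * R ^ (9 / 25 : ℝ) := by
    rw [← Real.rpow_add hR0]; norm_num
  have e5 : (16 : ℝ) ^ J * (R / ((((2 ^ 40) ^ J : ℕ) : ℝ))) = R / 2 ^ (36 * J) := by
    rw [castD, mul_div_assoc', div_eq_div_iff (by positivity) (by positivity)]
    have : (2 : ℝ) ^ (40 * J) = 16 ^ J * 2 ^ (36 * J) := by
      rw [show (16 : ℝ) = 2 ^ 4 by norm_num, ← pow_mul, ← pow_add]; congr 1; ring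
    rw [this]; ring
  rw [e5, div_le_iff₀ (by positivity)]
  calc R = R ^ (16 / 25 : ℝ) * R ^ (9 / 25 : ℝ) := h2
    _ ≤ R ^ (16 / 25 : ℝ) * (2 : ℝ) ^ (36 * (J + 1)) := mul_le_mul_of_nonneg_left h1 (by positivity)
    _ = _ := by rw [mul_add, mul_one, pow_add]; ring

lemma rho_le {R n δ : ℝ} (hR : 1 ≤ R) (hn : 1 ≤ n) (hδ0 : 0 < δ) (hδ : δ ≤ 1 / 75) :
    R ^ (16 / 25 : ℝ) ≤ R ^ (2 / 3 : ℝ) * (n / R ^ 2) ^ δ := by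
  have hR0 : 0 < R := by linarith
  have h1 : (R ^ 2)⁻¹ ≤ n / R ^ 2 := by
    rw [inv_eq_one_div]
    exact div_le_div_of_nonneg_right hn (by positivity)
  have h2 : ((R ^ 2)⁻¹) ^ δ ≤ (n / R ^ 2) ^ δ := Real.rpow_le_rpow (by positivity) h1 hδ0.le
  have h3 : ((R ^ 2)⁻¹) ^ δ = R ^ (-(2 * δ)) := by
    rw [← Real.rpow_natCast R 2, ← Real.rpow_neg hR0.le, ← Real.rpow_mul hR0.le]
    congr 1; push_cast; ring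
  have h4 : R ^ (-(2 / 75) : ℝ) ≤ R ^ (-(2 * δ)) := Real.rpow_le_rpow_of_exponent_le hR (by linarith)
  calc R ^ (16 / 25 : ℝ) = R ^ (2 / 3 : ℝ) * R ^ (-(2 / 75) : ℝ) := by rw [← Real.rpow_add hR0]; norm_num
    _ ≤ R ^ (2 / 3 : ℝ) * (n / R ^ 2) ^ δ := by
        refine mul_le_mul_of_nonneg_left (h4.trans ?_) (by positivity)
        rw [← h3]; exact h2

end Vale.Agent.P076.H23
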