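import Vale.Agent.P076.H23.Resc
import Vale.Agent.P076.H819.KerE

/-! # P076 / H23 : caps of length `1/D` in the variable `η 0` -/

open MeasureTheory Complex

namespace Vale.Agent.P076.H23

/-- profile: measurable, bounded, supported in `|η 0| ≤ 2`, `|η 1| ≤ 4` -/
structure Pf (G : E 2 → ℂ) : Prop where
  meas : Measurable G
  bdd : ∃ b : ℝ, ∀ η, ‖G η‖ ≤ b
  s0 : ∀ η, G η ≠ 0 → |η 0| ≤ 2
  s1 : ∀ η, G η ≠ 0 → |η 1| ≤ 4

lemma Pf.int {G : E 2 → ℂ} (h : Pf G) : Integrable G ∧ MemLp G 2 :=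
  Vale.Agent.P076.H819.int_of_bdd h.meas h.bdd (η0 := 0) (r := 4) fun η hη i => by
    fin_cases i
    · have := h.s0 η hη
      simp only [Fin.zero_eta, PiLp.zero_apply, sub_zero]; linarith
    · have := h.s1 η hη
      simpa using this

/-- restriction to the cap `[k/D, (k+1)/D)` -/
noncomputable def cap (D : ℝ) (k : ℤ) (G : E 2 → ℂ) (η : E 2) : ℂ := if ⌊D * η 0⌋ = k then G η else 0

lemma cap_ne {D : ℝ} {k : ℤ} {G : E 2 → ℂ} {η : E 2} (h : cap D k G η ≠ 0) : ⌊D * η 0⌋ = k ∧ G η ≠ 0 := by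
  unfold cap at h
  split_ifs at h with h1
  · exact ⟨h1, h⟩
  · exact absurd rfl h

lemma norm_cap_le (D : ℝ) (k : ℤ) (G : E 2 → ℂ) (η : E 2) : ‖cap D k G η‖ ≤ ‖G η‖ := by
  unfold cap
  split_ifs
  · exact le_rfl
  · rw [norm_zero]; exact norm_nonneg _

lemma measurable_coord (i : Fin 2) : Measurable fun η : E 2 => η i :=
  (EuclideanSpace.proj (𝕜 := ℝ) i).continuous.measurable

lemma measurable_cap (D : ℝ) (k : ℤ) {G : E 2 → ℂ} (hG : Measurable G) : Measurable (cap D k G) := by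
  unfold cap
  refine Measurable.ite ?_ hG measurable_const
  have h1 : Measurable fun η : E 2 => ⌊D * η 0⌋ := Int.measurable_floor.comp ((measurable_coord 0).const_mul D)
  exact h1 (measurableSet_singleton k)

lemma Pf.cap {G : E 2 → ℂ} (h : Pf G) (D : ℝ) (k : ℤ) : Pf (cap D k G) := by
  refine ⟨measurable_cap D k h.meas, ?_, fun η hη => h.s0 η (cap_ne hη).2, fun η hη => h.s1 η (cap_ne hη).2⟩
  obtain ⟨b, hb⟩ := h.bdd
  exact ⟨b, fun η => (norm_cap_le D k G η).trans (hb η)⟩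

lemma cap_child (B : ℕ) (hB : 0 < B) (D : ℝ) (k : ℤ) (G : E 2 → ℂ) (η : E 2) :
    cap D k G η = ∑ i ∈ Finset.range B, cap (B * D) (B * k + i) G η := by
  have hq : ⌊(B : ℝ) * D * η 0⌋ / (B : ℤ) = ⌊D * η 0⌋ := by
    rw [mul_assoc]
    exact Int.natCast_mul_floor_div_cancel hB.ne' _
  have hBz : (0 : ℤ) < B := by exact_mod_cast hB
  set q : ℤ := ⌊(B : ℝ) * D * η 0⌋ with hqd
  have hdm := Int.mul_ediv_add_emod q B
  have hm0 := Int.emod_nonneg q hBz.ne'
  have hm1 := Int.emod_lt_of_pos q hBz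
  unfold cap
  simp only [← hqd]
  by_cases hk : ⌊D * η 0⌋ = k
  · rw [if_pos hk]
    rw [Finset.sum_eq_single (q % B).toNat]
    · rw [if_pos]
      rw [Int.toNat_of_nonneg hm0, ← hk, ← hq]
      exact hdm.symm
    · intro i _ hi
      rw [if_neg]
      intro h
      apply hi
      rw [hq, hk] at hdm
      have : q % B = i := by linarith
      rw [this]
      exact (Int.toNat_natCast i).symm
    · intro h
      exfalso
      apply h
      rw [Finset.mem_range]
      omega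
  · rw [if_neg hk]
    refine (Finset.sum_eq_zero fun i hi => ?_).symm
    rw [if_neg]
    intro h
    apply hk
    rw [← hq, h, Finset.mem_range] at *
    rw [Int.add_comm, Int.add_mul_ediv_left _ _ hBz.ne', Int.ediv_eq_zero_of_lt (by positivity) (by exact_mod_cast hi),
      zero_add]

lemma evo_sum {ι : Type*} (S : Finset ι) (F : ι → E 2 → ℂ) (hF : ∀ i ∈ S, Pf (F i)) (x : E 2) (t : ℝ) :
    evo (fun η => ∑ i ∈ S, F i η) x t 0 = ∑ i ∈ S, evo (F i) x t 0 := by
  unfold evo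
  rw [← integral_finsetSum]
  · refine integral_congr_ae (Filter.Eventually.of_forall fun η => ?_)
    simp only [Finset.mul_sum]
  · intro i hi
    have h := (hF i hi).int.1
    have hc : Continuous fun η : E 2 => cexp (2 * Real.pi * I * ((inner ℝ x η - t * ‖η‖ ^ 2 : ℝ) : ℂ) - (0 * ‖η‖ ^ 2 : ℝ)) := by
      fun_prop
    refine Integrable.bdd_mul (c := 1) h hc.aestronglyMeasurable (Filter.Eventually.of_forall fun η => ?_)
    have e : (2 * Real.pi * I * ((inner ℝ x η - t * ‖η‖ ^ 2 : ℝ) : ℂ) - ((0 * ‖η‖ ^ 2 : ℝ) : ℂ)) =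
        ((2 * Real.pi * (inner ℝ x η - t * ‖η‖ ^ 2) : ℝ) : ℂ) * I := by
      push_cast; ring
    rw [e, Complex.norm_exp_ofReal_mul_I]

lemma evo_child {G : E 2 → ℂ} (h : Pf G) (B : ℕ) (hB : 0 < B) (D : ℝ) (k : ℤ) (x : E 2) (t : ℝ) :
    evo (cap D k G) x t 0 = ∑ i ∈ Finset.range B, evo (cap (B * D) (B * k + i) G) x t 0 := by
  rw [← evo_sum _ _ fun i _ => h.cap _ _]
  congr 1
  ext η
  exact cap_child B hB D k G η

lemma evo_top {G : E 2 → ℂ} (h : Pf G) (x : E 2) (t : ℝ) :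
    ∃ k : ℤ, ‖evo G x t 0‖ / 5 ≤ ‖evo (cap 1 k G) x t 0‖ := by
  have e : evo G x t 0 = ∑ k ∈ Finset.Icc (-2 : ℤ) 2, evo (cap 1 k G) x t 0 := by
    rw [← evo_sum _ _ fun i _ => h.cap _ _]
    congr 1
    ext η
    by_cases h0 : G η = 0
    · rw [h0]
      refine (Finset.sum_eq_zero fun k _ => ?_).symm
      unfold cap
      split_ifs
      · exact h0
      · rfl
    · have h1 := abs_le.1 (h.s0 η h0)
      rw [Finset.sum_eq_single ⌊1 * η 0⌋]
      · unfold cap
        rw [if_pos rfl]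
      · intro k _ hk
        unfold cap
        rw [if_neg (fun h => hk h.symm)]
      · intro hn
        exfalso
        apply hn
        rw [one_mul, Finset.mem_Icc]
        constructor
        · rw [Int.le_floor]; push_cast; exact h1.1
        · rw [← Int.lt_add_one_iff, Int.floor_lt]; push_cast; linarith [h1.2]
  by_contra hc
  push Not at hc
  have h1 : ‖evo G x t 0‖ ≤ ∑ k ∈ Finset.Icc (-2 : ℤ) 2, ‖evo (cap 1 k G) x t 0‖ := by
    rw [e]; exact norm_sum_le _ _
  have h2 : ∑ k ∈ Finset.Icc (-2 : ℤ) 2, ‖evo (cap 1 k G) x t 0‖ < ∑ k ∈ Finset.Icc (-2 : ℤ) 2, ‖evo G x t 0‖ / 5 :=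
    Finset.sum_lt_sum_of_nonempty ⟨0, by simp⟩ fun k _ => hc k
  have h3 : (Finset.Icc (-2 : ℤ) 2).card = 5 := by decide
  rw [Finset.sum_const, h3, nsmul_eq_mul] at h2
  push_cast at h2
  linarith

lemma sum_cap_le {G : E 2 → ℂ} (h : Pf G) (D : ℝ) (S : Finset ℤ) :
    ∑ k ∈ S, ∫ η, ‖cap D k G η‖ ^ 2 ≤ ∫ η, ‖G η‖ ^ 2 := by
  rw [← integral_finsetSum _ fun k _ => (h.cap D k).int.2.integrable_norm_pow (by norm_num)]
  refine integral_mono (integrable_finsetSum _ fun k _ => (h.cap D k).int.2.integrable_norm_pow (by norm_num))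
    (h.int.2.integrable_norm_pow (by norm_num)) fun η => ?_
  simp only
  by_cases hm : ⌊D * η 0⌋ ∈ S
  · rw [Finset.sum_eq_single_of_mem _ hm]
    · exact pow_le_pow_left₀ (norm_nonneg _) (norm_cap_le _ _ _ _) 2
    · intro k _ hk
      unfold cap
      rw [if_neg (fun h => hk h.symm)]
      simp
  · rw [Finset.sum_eq_zero]
    · positivity
    · intro k hk
      unfold cap
      rw [if_neg (fun h' => hm (by rw [h']; exact hk))]
      simp

end Vale.Agent.P076.H23
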