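import Vale.Agent.P076.H23.Defs

/-! # P076 / H23 : counting of points in the moving `D × D × D²` cells -/

open MeasureTheory

namespace Vale.Agent.P076.H23

/-- points with `0 ≤ t ≤ R` and at most `C r²` of them in each cube of side `2 r`, `r ≥ 1` -/
structure Cf (C R : ℝ) (A : Finset Ix) (x : Ix → E 2) (t : Ix → ℝ) : Prop where
  t0 : ∀ i ∈ A, 0 ≤ t i
  tR : ∀ i ∈ A, t i ≤ R
  dim : ∀ (r : ℝ) (y : E 2) (s : ℝ), 1 ≤ r →
    ((A.filter fun i => (∀ k, |x i k - y k| ≤ r) ∧ |t i - s| ≤ r).card : ℝ) ≤ C * r ^ 2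

lemma Cf.mono {C R : ℝ} {A A' : Finset Ix} {x : Ix → E 2} {t : Ix → ℝ} (h : Cf C R A x t) (hs : A' ⊆ A) : Cf C R A' x t := by
  refine ⟨fun i hi => h.t0 i (hs hi), fun i hi => h.tR i (hs hi), fun r y s hr => le_trans ?_ (h.dim r y s hr)⟩
  exact_mod_cast Finset.card_le_card (Finset.filter_subset_filter _ hs)

lemma Cf.C_nonneg {C R : ℝ} {A : Finset Ix} {x : Ix → E 2} {t : Ix → ℝ} (h : Cf C R A x t) : 0 ≤ C := by
  have := h.dim 1 0 0 le_rfl
  have h2 : (0 : ℝ) ≤ ((A.filter fun i => (∀ k, |x i k - (0 : E 2) k| ≤ 1) ∧ |t i - 0| ≤ 1).card : ℝ) := Nat.cast_nonneg _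
  nlinarith

/-- new positions -/
noncomputable def nx (D : ℝ) (c : E 2) (x : Ix → E 2) (t : Ix → ℝ) (i : Ix) : E 2 := D⁻¹ • (x i - (2 * t i) • c)

lemma count_resc {C R : ℝ} {A : Finset Ix} {x : Ix → E 2} {t : Ix → ℝ} (h : Cf C R A x t) {D : ℕ} (hD : 1 ≤ D) {c : E 2}
    (hc : ∀ k, |c k| ≤ 3) (r : ℝ) (hr : 1 ≤ r) (y : E 2) (s : ℝ) :
    ((A.filter fun i => (∀ k, |nx D c x t i k - y k| ≤ r) ∧ |t i / (D : ℝ) ^ 2 - s| ≤ r).card : ℝ) ≤
      98 * C * D ^ 3 * r ^ 2 := by
  classical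
  have hDr : (1 : ℝ) ≤ D := by exact_mod_cast hD
  have hD0 : (0 : ℝ) < D := by linarith
  set S : ℕ → Finset Ix := fun m => A.filter fun i =>
    (∀ k, |x i k - (((D : ℝ) • y + (2 * (D ^ 2 * s - D ^ 2 * r + (2 * m + 1) * D * r)) • c : E 2)) k| ≤ 7 * D * r) ∧
      |t i - (D ^ 2 * s - D ^ 2 * r + (2 * m + 1) * D * r)| ≤ 7 * D * r with hS
  have hsub : (A.filter fun i => (∀ k, |nx D c x t i k - y k| ≤ r) ∧ |t i / (D : ℝ) ^ 2 - s| ≤ r) ⊆
      (Finset.range (D + 1)).biUnion S := by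
    intro i hi
    rw [Finset.mem_filter] at hi
    obtain ⟨hiA, hx, ht⟩ := hi
    have ht1 : |t i - D ^ 2 * s| ≤ D ^ 2 * r := by
      have e : t i - D ^ 2 * s = D ^ 2 * (t i / (D : ℝ) ^ 2 - s) := by field_simp
      rw [e, abs_mul, abs_of_pos (by positivity)]
      exact mul_le_mul_of_nonneg_left ht (by positivity)
    have ht2 := abs_le.1 ht1
    set q : ℝ := (t i - (D ^ 2 * s - D ^ 2 * r)) / (2 * D * r) with hq
    have hq0 : 0 ≤ q := div_nonneg (by linarith) (by positivity)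
    have hqe : t i - (D ^ 2 * s - D ^ 2 * r) = 2 * D * r * q := by
      rw [hq]; field_simp
    have hq1 : q ≤ D := by
      rw [hq, div_le_iff₀ (by positivity)]
      nlinarith
    have hf1 := Nat.floor_le hq0
    have hf2 := Nat.lt_floor_add_one q
    rw [Finset.mem_biUnion]
    refine ⟨⌊q⌋₊, ?_, ?_⟩
    · rw [Finset.mem_range, Nat.lt_succ_iff]
      exact_mod_cast hf1.trans hq1
    · rw [hS, Finset.mem_filter]
      have hDr0 : 0 < D * r := by positivity
      have hτ : |t i - (D ^ 2 * s - D ^ 2 * r + (2 * (⌊q⌋₊ : ℝ) + 1) * D * r)| ≤ D * r := by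
        rw [abs_le]
        constructor <;> nlinarith
      refine ⟨hiA, fun k => ?_, hτ.trans (by nlinarith)⟩
      have hxk := hx k
      unfold nx at hxk
      simp only [PiLp.smul_apply, PiLp.sub_apply, smul_eq_mul] at hxk
      simp only [PiLp.add_apply, PiLp.smul_apply, smul_eq_mul]
      have e : x i k - (D * y k + 2 * (D ^ 2 * s - D ^ 2 * r + (2 * (⌊q⌋₊ : ℝ) + 1) * D * r) * c k) =
          D * ((D : ℝ)⁻¹ * (x i k - 2 * t i * c k) - y k) +
            2 * (t i - (D ^ 2 * s - D ^ 2 * r + (2 * (⌊q⌋₊ : ℝ) + 1) * D * r)) * c k := by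
        field_simp
        ring
      rw [e]
      refine (abs_add_le _ _).trans ?_
      rw [abs_mul, abs_mul, abs_mul, abs_of_pos hD0, abs_two]
      have h1 := hc k
      have h2 : |t i - (D ^ 2 * s - D ^ 2 * r + (2 * (⌊q⌋₊ : ℝ) + 1) * D * r)| * |c k| ≤ D * r * 3 :=
        mul_le_mul hτ h1 (abs_nonneg _) (by positivity)
      have h3 : D * |(D : ℝ)⁻¹ * (x i k - 2 * t i * c k) - y k| ≤ D * r := mul_le_mul_of_nonneg_left hxk hD0.le
      linarith
  have hcard : (((Finset.range (D + 1)).biUnion S).card : ℝ) ≤ (D + 1) * (C * (7 * D * r) ^ 2) := by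
    have h1 : ((Finset.range (D + 1)).biUnion S).card ≤ ∑ m ∈ Finset.range (D + 1), (S m).card := Finset.card_biUnion_le
    have h2 : (((Finset.range (D + 1)).biUnion S).card : ℝ) ≤ ∑ m ∈ Finset.range (D + 1), ((S m).card : ℝ) := by
      exact_mod_cast h1
    refine h2.trans ?_
    have h3 : ∀ m ∈ Finset.range (D + 1), ((S m).card : ℝ) ≤ C * (7 * D * r) ^ 2 := by
      intro m _
      exact h.dim _ _ _ (by nlinarith)
    refine (Finset.sum_le_sum h3).trans ?_
    rw [Finset.sum_const, Finset.card_range, nsmul_eq_mul]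
    push_cast
    exact le_rfl
  have h4 : ((A.filter fun i => (∀ k, |nx D c x t i k - y k| ≤ r) ∧ |t i / (D : ℝ) ^ 2 - s| ≤ r).card : ℝ) ≤
      ((Finset.range (D + 1)).biUnion S).card := by exact_mod_cast Finset.card_le_card hsub
  refine h4.trans (hcard.trans ?_)
  have hC := h.C_nonneg
  have h5 : (D : ℝ) + 1 ≤ 2 * D := by linarith
  have h6 : 0 ≤ C * (7 * D * r) ^ 2 := by positivity
  calc ((D : ℝ) + 1) * (C * (7 * D * r) ^ 2) ≤ (2 * D) * (C * (7 * D * r) ^ 2) := mul_le_mul_of_nonneg_right h5 h6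
    _ = 98 * C * D ^ 3 * r ^ 2 := by ring

/-! ### representatives -/

/-- representatives of the classes, sorted by the (octal) size of the class -/
lemma reps {κ : Type*} [DecidableEq κ] (A : Finset Ix) (cell : Ix → κ) (N : ℕ)
    (hN : ∀ i ∈ A, (A.filter fun j => cell j = cell i).card < 8 ^ N) :
    ∃ F : ℕ → Finset Ix, (∀ a, F a ⊆ A) ∧ (∀ a, ∀ i ∈ F a, ∀ j ∈ F a, cell i = cell j → i = j) ∧
      (∀ a, ∀ i ∈ F a, 8 ^ a ≤ (A.filter fun j => cell j = cell i).card) ∧
        A.card ≤ ∑ a ∈ Finset.range N, 8 ^ (a + 1) * (F a).card := by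
  classical
  have hch : ∀ q : κ, ∃ i : Ix, q ∈ A.image cell → i ∈ A ∧ cell i = q := by
    intro q
    by_cases hq : q ∈ A.image cell
    · obtain ⟨i, hi, h⟩ := Finset.mem_image.1 hq
      exact ⟨i, fun _ => ⟨hi, h⟩⟩
    · exact ⟨0, fun h => absurd h hq⟩
  choose rep hrep using hch
  set n : κ → ℕ := fun q => (A.filter fun j => cell j = q).card with hn
  refine ⟨fun a => ((A.image cell).filter fun q => Nat.log 8 (n q) = a).image rep, ?_, ?_, ?_, ?_⟩
  · intro a i hi
    obtain ⟨q, hq, rfl⟩ := Finset.mem_image.1 hi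
    exact (hrep q (Finset.mem_filter.1 hq).1).1
  · intro a i hi j hj hij
    obtain ⟨q, hq, rfl⟩ := Finset.mem_image.1 hi
    obtain ⟨q', hq', rfl⟩ := Finset.mem_image.1 hj
    rw [(hrep q (Finset.mem_filter.1 hq).1).2, (hrep q' (Finset.mem_filter.1 hq').1).2] at hij
    rw [hij]
  · intro a i hi
    obtain ⟨q, hq, rfl⟩ := Finset.mem_image.1 hi
    obtain ⟨hq1, hq2⟩ := Finset.mem_filter.1 hq
    rw [(hrep q hq1).2]
    have hpos : n q ≠ 0 := by
      obtain ⟨i, hi, h⟩ := Finset.mem_image.1 hq1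
      rw [hn]
      exact (Finset.card_pos.2 ⟨i, Finset.mem_filter.2 ⟨hi, h⟩⟩).ne'
    rw [← hq2]
    exact Nat.pow_log_le_self 8 hpos
  · have hA : A.card = ∑ q ∈ A.image cell, n q := Finset.card_eq_sum_card_image cell A
    have hinj : ∀ a, (((A.image cell).filter fun q => Nat.log 8 (n q) = a).image rep).card =
        ((A.image cell).filter fun q => Nat.log 8 (n q) = a).card := by
      intro a
      refine Finset.card_image_of_injOn fun q hq q' hq' h => ?_
      have h1 := (hrep q (Finset.mem_filter.1 hq).1).2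
      have h2 := (hrep q' (Finset.mem_filter.1 hq').1).2
      rw [← h1, ← h2, h]
    rw [hA, ← Finset.sum_fiberwise_of_maps_to (s := A.image cell) (t := Finset.range N) (g := fun q => Nat.log 8 (n q))]
    · refine Finset.sum_le_sum fun a _ => ?_
      rw [hinj a]
      have h1 : ∀ q ∈ (A.image cell).filter fun q => Nat.log 8 (n q) = a, n q ≤ 8 ^ (a + 1) := by
        intro q hq
        rw [← (Finset.mem_filter.1 hq).2]
        exact (Nat.lt_pow_succ_log_self (by norm_num) _).le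
      refine (Finset.sum_le_sum h1).trans ?_
      rw [Finset.sum_const, smul_eq_mul, mul_comm]
    · intro q hq
      obtain ⟨i, hi, rfl⟩ := Finset.mem_image.1 hq
      rw [Finset.mem_range]
      have hmem : i ∈ A.filter fun j => cell j = cell i := Finset.mem_filter.2 ⟨hi, rfl⟩
      have hne : n (cell i) ≠ 0 := (Finset.card_pos.2 ⟨i, hmem⟩).ne'
      exact (Nat.pow_lt_pow_iff_right (a := 8) (by norm_num)).1 (lt_of_le_of_lt (Nat.pow_log_le_self 8 hne) (hN i hi))

end Vale.Agent.P076.H23
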