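import Vale.Agent.P076.ASM.Defs

/-! # P076 / H23 : TS.NAR (helper23).  The narrow part of the thick slab theorem.

`StBS` (broad thick slab, arbitrary density `g`, real points, strip around the `η 0`-axis) implies `StTS` (`StNAR`). -/

open MeasureTheory Complex FourierTransform Vale.Agent.P122.C2 Vale.Agent.P076.ASM

namespace Vale.Agent.P076.H23

/-- index type of the points (any countable type would do) -/
abbrev Ix := Fin 2 → ℤ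

/-- `A` indexes points `(x i, t i)`, `0 ≤ t i ≤ R`, at most one in each unit cube, and at most `g r²` in each cube of side
`2 r`, `r ≥ 1` -/
structure Pt (g R : ℝ) (A : Finset Ix) (x : Ix → E 2) (t : Ix → ℝ) : Prop where
  t0 : ∀ i ∈ A, 0 ≤ t i
  tR : ∀ i ∈ A, t i ≤ R
  cell : ∀ i ∈ A, ∀ j ∈ A, (∀ k, ⌊x i k⌋ = ⌊x j k⌋) → ⌊t i⌋ = ⌊t j⌋ → i = j
  dim : ∀ (r : ℝ) (y : E 2) (s : ℝ), 1 ≤ r →
    ((A.filter fun i => (∀ k, |x i k - y k| ≤ r) ∧ |t i - s| ≤ r).card : ℝ) ≤ g * r ^ 2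

/-- profile in the strip `|η 1| ≤ w`, `|η 0| ≤ 1` -/
structure Str (w : ℝ) (G : E 2 → ℂ) : Prop where
  meas : Measurable G
  bdd : ∃ b : ℝ, ∀ η, ‖G η‖ ≤ b
  s0 : ∀ η, G η ≠ 0 → |η 0| ≤ 1
  s1 : ∀ η, G η ≠ 0 → |η 1| ≤ w

/-- **(BS)** broad thick slab with density `g`: both of two `ν`-separated pieces are `≥ α` at the points.  The points `x i`
are not assumed to be in a ball.  (Gain only for `#A ≤ g R²`: so `δ` can be decreased.) -/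
def StBS : Prop := ∃ c δ : ℝ, 0 < c ∧ 0 < δ ∧ ∀ ν : ℝ, 0 < ν → ∃ C : ℝ, ∀ (R g α a : ℝ) (G₁ G₂ : E 2 → ℂ) (A : Finset Ix)
  (x : Ix → E 2) (t : Ix → ℝ), 1 ≤ R → 1 ≤ g → g ≤ R ^ (12 / 25 : ℝ) → 0 ≤ α → Str (R ^ (c - 1 / 2)) G₁ → Str (R ^ (c - 1 / 2)) G₂ →
    (∀ η, G₁ η ≠ 0 → η 0 ≤ a) → (∀ η, G₂ η ≠ 0 → a + ν ≤ η 0) → Pt g R A x t →
    (∀ i ∈ A, α ≤ ‖evo G₁ (x i) (t i) 0‖ ∧ α ≤ ‖evo G₂ (x i) (t i) 0‖) →
      α ^ 2 * A.card ≤ C * (g * R) ^ (2 / 3 : ℝ) * (min 1 ((A.card : ℝ) / (g * R ^ 2))) ^ δ *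
        ((∫ η, ‖G₁ η‖ ^ 2) + ∫ η, ‖G₂ η‖ ^ 2)

/-- **TS.NAR** -/
def StNAR : Prop := StBS → StTS

end Vale.Agent.P076.H23
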