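import Vale.Agent.P076.H23.Lev
import Vale.Agent.P076.H23.Ari
import Vale.Agent.P076.H780.Triv

/-! # P076 / H23 : `StNAR` -/

open MeasureTheory

namespace Vale.Agent.P076.H23

open Vale.Agent.P122.C2 Vale.Agent.P076.ASM

/-- `B = 2^40` -/
@[irreducible] def BB : ℕ := 2 ^ 40

lemma BB_eq : BB = 2 ^ 40 := by unfold BB; rfl

lemma BB_pos : 0 < BB := by rw [BB_eq]; positivity

lemma card_split {A : Finset Ix} {J : ℕ} (T : Finset Ix) (S : ℕ → ℕ → ℕ → Finset Ix)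
    (h : ∀ i ∈ A, i ∈ T ∨ ∃ j < J, ∃ i1 ∈ Finset.range BB, ∃ i2 ∈ Finset.range BB, i1 + 2 ≤ i2 ∧ i ∈ S j i1 i2) :
    (A.card : ℝ) ≤ T.card + ∑ j ∈ Finset.range J, ∑ i1 ∈ Finset.range BB, ∑ i2 ∈ Finset.range BB,
      (if i1 + 2 ≤ i2 then ((S j i1 i2).card : ℝ) else 0) := by
  classical
  have hsub : A ⊆ T ∪ (Finset.range J).biUnion fun j => (Finset.range BB).biUnion fun i1 => (Finset.range BB).biUnion
      fun i2 => if i1 + 2 ≤ i2 then S j i1 i2 else ∅ := by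
    intro i hi
    rcases h i hi with h | ⟨j, hj, i1, hi1, i2, hi2, h12, h⟩
    · exact Finset.mem_union_left _ h
    · refine Finset.mem_union_right _ ?_
      simp only [Finset.mem_biUnion]
      exact ⟨j, Finset.mem_range.2 hj, i1, hi1, i2, hi2, by rw [if_pos h12]; exact h⟩
  have h1 : A.card ≤ T.card + ∑ j ∈ Finset.range J, ∑ i1 ∈ Finset.range BB, ∑ i2 ∈ Finset.range BB,
      (if i1 + 2 ≤ i2 then (S j i1 i2).card else 0) := by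
    refine (Finset.card_le_card hsub).trans ((Finset.card_union_le _ _).trans (Nat.add_le_add_left ?_ _))
    refine Finset.card_biUnion_le.trans (Finset.sum_le_sum fun j _ => ?_)
    refine Finset.card_biUnion_le.trans (Finset.sum_le_sum fun i1 _ => ?_)
    refine Finset.card_biUnion_le.trans (Finset.sum_le_sum fun i2 _ => ?_)
    split_ifs
    · exact le_rfl
    · exact le_rfl
  have h2 : (A.card : ℝ) ≤ ((T.card + ∑ j ∈ Finset.range J, ∑ i1 ∈ Finset.range BB, ∑ i2 ∈ Finset.range BB,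
      (if i1 + 2 ≤ i2 then (S j i1 i2).card else 0) : ℕ) : ℝ) := Nat.cast_le.2 h1
  refine h2.trans (le_of_eq ?_)
  rw [Nat.cast_add, Nat.cast_sum]
  congr 1
  refine Finset.sum_congr rfl fun j _ => ?_
  rw [Nat.cast_sum]
  refine Finset.sum_congr rfl fun i1 _ => ?_
  rw [Nat.cast_sum]
  refine Finset.sum_congr rfl fun i2 _ => ?_
  split_ifs
  · rfl
  · exact Nat.cast_zero

/-- bound of one level -/
lemma lev_sum {Cb Ct R ρ δ M α n : ℝ} {c1 : ℕ} (hCb : 0 ≤ Cb) (hCt : 0 ≤ Ct) (hR : 1 ≤ R) (hρ0 : 0 ≤ ρ) (hM : 0 ≤ M)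
    (hδ : δ ≤ 1 / 75) (hrho : R ^ (16 / 25 : ℝ) ≤ R ^ (2 / 3 : ℝ) * ρ ^ δ) (j : ℕ)
    (hj : ((((2 ^ 40) ^ j : ℕ) : ℝ)) ^ 5 ≤ R ^ 2)
    (h : (α / 5 * (1 / 4) ^ j / (8 * BB)) ^ 2 * n ≤
      (16 * Cb * c1 ^ 3 * ((((((2 ^ 40) ^ j : ℕ) : ℝ)) * ((((((2 ^ 40) ^ j : ℕ) : ℝ)) * R) ^ (2 / 3 : ℝ)) *
        ((((2 ^ 40) ^ j : ℕ) : ℝ) ^ 2)⁻¹ * (((((2 ^ 40) ^ j : ℕ) : ℝ)) * ρ) ^ δ)) +
      10 * Ct * c1 ^ 3 * (R / ((((2 ^ 40) ^ j : ℕ) : ℝ)) * (R / ((((2 ^ 40) ^ j : ℕ) : ℝ)) ^ 2) ^ (-(12 / 25) : ℝ))) * (2 * M)) :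
    α ^ 2 * n ≤ (1 / 2) ^ j * ((3200 * BB ^ 2) * (16 * Cb * c1 ^ 3 + 10 * Ct * c1 ^ 3) * (R ^ (2 / 3 : ℝ) * ρ ^ δ) * M) := by
  have h1 := lev1 (R := R) (ρ := ρ) (by linarith) hρ0 hδ j
  have h2 := lev2 hR j hj
  set P : ℝ := (((((2 ^ 40) ^ j : ℕ) : ℝ)) * ((((((2 ^ 40) ^ j : ℕ) : ℝ)) * R) ^ (2 / 3 : ℝ)) *
        ((((2 ^ 40) ^ j : ℕ) : ℝ) ^ 2)⁻¹ * (((((2 ^ 40) ^ j : ℕ) : ℝ)) * ρ) ^ δ) with hP
  set Q : ℝ := (R / ((((2 ^ 40) ^ j : ℕ) : ℝ)) * (R / ((((2 ^ 40) ^ j : ℕ) : ℝ)) ^ 2) ^ (-(12 / 25) : ℝ)) with hQ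
  have hBB : (0 : ℝ) < BB := by exact_mod_cast BB_pos
  have h16 : ((1 / 4 : ℝ) ^ j) ^ 2 = ((16 : ℝ) ^ j)⁻¹ := by
    rw [← pow_mul, mul_comm j 2, pow_mul, ← inv_pow]; norm_num
  have e : (α / 5 * (1 / 4) ^ j / (8 * BB)) ^ 2 * n = α ^ 2 * n / (1600 * BB ^ 2 * 16 ^ j) := by
    rw [div_pow, mul_pow, div_pow, h16]
    field_simp
    ring
  rw [e, div_le_iff₀ (by positivity)] at h
  refine h.trans ?_
  have h3 : (16 : ℝ) ^ j * Q ≤ (1 / 2) ^ j * (R ^ (2 / 3 : ℝ) * ρ ^ δ) :=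
    h2.trans (mul_le_mul_of_nonneg_left hrho (by positivity))
  have h4 : 0 ≤ 16 * Cb * (c1 : ℝ) ^ 3 := by positivity
  have h5 : 0 ≤ 10 * Ct * (c1 : ℝ) ^ 3 := by positivity
  calc (16 * Cb * c1 ^ 3 * P + 10 * Ct * c1 ^ 3 * Q) * (2 * M) * (1600 * BB ^ 2 * 16 ^ j) =
      ((16 * Cb * c1 ^ 3) * (16 ^ j * P) + (10 * Ct * c1 ^ 3) * (16 ^ j * Q)) * (3200 * BB ^ 2 * M) := by ring
    _ ≤ ((16 * Cb * c1 ^ 3) * ((1 / 2) ^ j * (R ^ (2 / 3 : ℝ) * ρ ^ δ)) +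
        (10 * Ct * c1 ^ 3) * ((1 / 2) ^ j * (R ^ (2 / 3 : ℝ) * ρ ^ δ))) * (3200 * BB ^ 2 * M) := by
        refine mul_le_mul_of_nonneg_right ?_ (by positivity)
        exact add_le_add (mul_le_mul_of_nonneg_left h1 h4) (mul_le_mul_of_nonneg_left h3 h5)
    _ = _ := by ring

/-- the narrow part for one configuration -/
theorem core {c δ Cb Ct : ℝ} (hc : 0 < c) (hc2 : c ≤ 1 / 2) (hδ0 : 0 < δ) (hδ : δ ≤ 1 / 75) (hCb : 0 ≤ Cb)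
    (H : BSat c δ (1 / BB) Cb) (hCt : 0 ≤ Ct) (HT : TRV Ct) : ∃ C : ℝ, 0 ≤ C ∧
    ∀ (R : ℝ) (G : E 2 → ℂ) (A : Finset Ix) (x : Ix → E 2) (t : Ix → ℝ) (α b : ℝ), 1 ≤ R → 0 < α → Pf G → |b| ≤ 3 →
      (∀ η, G η ≠ 0 → |η 1 - b| ≤ R ^ (c / 5 - 1 / 2)) → Cf 25 R A x t → A.Nonempty →
      (∀ i ∈ A, α ≤ ‖evo G (x i) (t i) 0‖) →
        α ^ 2 * A.card ≤ C * R ^ (2 / 3 : ℝ) * ((A.card : ℝ) / R ^ 2) ^ δ * ∫ η, ‖G η‖ ^ 2 := by
  classical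
  refine ⟨25 * (Ct * 22 ^ 3) * 2 ^ 36 + 2 * (BB ^ 2 * ((3200 * BB ^ 2) * (16 * Cb * 22 ^ 3 + 10 * Ct * 22 ^ 3))),
    by positivity, ?_⟩
  intro R G A x t α b hR hα hG hb hst hA hAne hbig
  have hR0 : 0 < R := by linarith
  have hBpos : 0 < BB := BB_pos
  -- number of levels
  set J : ℕ := Nat.log (BB ^ 5) ⌊R ^ 2⌋₊ with hJ
  have hfl : ⌊R ^ 2⌋₊ ≠ 0 := (Nat.floor_pos.2 (by nlinarith)).ne'
  have hB5 : 1 < BB ^ 5 := by rw [BB_eq]; norm_num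
  have hpow : ∀ j : ℕ, ((((2 ^ 40) ^ j : ℕ) : ℝ)) ^ 5 = (((BB ^ 5) ^ j : ℕ) : ℝ) := by
    intro j
    rw [BB_eq, ← Nat.cast_pow, ← pow_mul, ← pow_mul, ← pow_mul, ← pow_mul]
    congr 2
    ring
  have hlow : ∀ j ≤ J, ((((2 ^ 40) ^ j : ℕ) : ℝ)) ^ 5 ≤ R ^ 2 := by
    intro j hj
    have h1 : (BB ^ 5) ^ j ≤ ⌊R ^ 2⌋₊ := (Nat.pow_le_pow_right hB5.le hj).trans (Nat.pow_log_le_self _ hfl)
    have h2 : (((BB ^ 5) ^ j : ℕ) : ℝ) ≤ R ^ 2 := le_trans (Nat.cast_le.2 h1) (Nat.floor_le (by positivity))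
    rw [hpow j]
    exact h2
  have hup : R ^ 2 ≤ ((((2 ^ 40) ^ (J + 1) : ℕ) : ℝ)) ^ 5 := by
    have h1 : ⌊R ^ 2⌋₊ < (BB ^ 5) ^ (J + 1) := Nat.lt_pow_succ_log_self hB5 _
    have h2 : R ^ 2 < (((BB ^ 5) ^ (J + 1) : ℕ) : ℝ) := by
      refine lt_of_lt_of_le (Nat.lt_floor_add_one (R ^ 2)) ?_
      exact_mod_cast h1
    rw [hpow (J + 1)]
    exact h2.le
  set ρ : ℝ := (A.card : ℝ) / R ^ 2 with hρ
  have hρ0 : 0 ≤ ρ := by positivity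
  have hn1 : (1 : ℝ) ≤ A.card := by exact_mod_cast hAne.card_pos
  have hrho : R ^ (16 / 25 : ℝ) ≤ R ^ (2 / 3 : ℝ) * ρ ^ δ := rho_le hR hn1 hδ0 hδ
  set M : ℝ := ∫ η, ‖G η‖ ^ 2 with hM
  have hM0 : 0 ≤ M := integral_nonneg fun _ => by positivity
  set DD : ℕ → ℕ := fun j => (2 ^ 40) ^ j with hDD
  have hDD1 : ∀ j, 1 ≤ DD j := fun j => Nat.one_le_pow _ _ (by norm_num)
  set T : Finset Ix := A.filter fun i => ∃ k : ℤ, α / 5 * (1 / 4) ^ J ≤ ‖evo (cap (DD J) k G) (x i) (t i) 0‖ with hT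
  set S : ℕ → ℕ → ℕ → Finset Ix := fun j i1 i2 => A.filter fun i => ∃ k : ℤ,
    α / 5 * (1 / 4) ^ j / (8 * BB) ≤ ‖evo (cap (BB * DD j) (BB * k + i1) G) (x i) (t i) 0‖ ∧
    α / 5 * (1 / 4) ^ j / (8 * BB) ≤ ‖evo (cap (BB * DD j) (BB * k + i2) G) (x i) (t i) 0‖ with hS
  have hsel : ∀ i ∈ A, i ∈ T ∨ ∃ j < J, ∃ i1 ∈ Finset.range BB, ∃ i2 ∈ Finset.range BB, i1 + 2 ≤ i2 ∧ i ∈ S j i1 i2 := by
    intro i hi
    obtain ⟨k0, hk0⟩ := evo_top hG (x i) (t i)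
    have hsucc : ∀ j, ((DD (j + 1) : ℕ) : ℝ) = (BB : ℝ) * DD j := by
      intro j
      show (((2 ^ 40) ^ (j + 1) : ℕ) : ℝ) = (BB : ℝ) * (((2 ^ 40) ^ j : ℕ) : ℝ)
      rw [BB_eq, pow_succ', Nat.cast_mul]
    have h0 : α / 5 ≤ ‖evo (cap (DD 0) k0 G) (x i) (t i) 0‖ := by
      have : ((DD 0 : ℕ) : ℝ) = 1 := by
        show (((2 ^ 40) ^ 0 : ℕ) : ℝ) = 1
        rw [pow_zero, Nat.cast_one]
      rw [this]
      linarith [hbig i hi]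
    have hchi : ∀ (j : ℕ) (k : ℤ), evo (cap (DD j) k G) (x i) (t i) 0 =
        ∑ i' ∈ Finset.range BB, evo (cap (DD (j + 1)) (BB * k + i') G) (x i) (t i) 0 := by
      intro j k
      rw [hsucc j]
      exact evo_child hG BB hBpos (DD j) k (x i) (t i)
    have hsel := select hBpos (fun j k => evo (cap (DD j) k G) (x i) (t i) 0) hchi (α / 5) k0 h0 J
    rcases hsel with ⟨k, hk⟩ | ⟨j, hj, k, i1, hi1, i2, hi2, h12, h1, h2⟩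
    · left
      rw [hT, Finset.mem_filter]
      exact ⟨hi, k, hk⟩
    · right
      refine ⟨j, hj, i1, hi1, i2, hi2, h12, Finset.mem_filter.2 ⟨hi, k, ?_, ?_⟩⟩
      · rw [← hsucc j]; exact h1
      · rw [← hsucc j]; exact h2
  have hcard := card_split T S hsel
  have hc1C : 392 * (25 : ℝ) ≤ ((22 : ℕ) : ℝ) ^ 3 := by norm_num
  -- trivial part
  have hTb : α ^ 2 * (T.card : ℝ) ≤ 25 * (Ct * 22 ^ 3) * 2 ^ 36 * (R ^ (2 / 3 : ℝ) * ρ ^ δ) * M := by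
    have h1 := level_triv (β := α / 5 * (1 / 4) ^ J) hc hc2 hCt HT hR hc1C (hA.mono (Finset.filter_subset _ _ : T ⊆ A)) (hDD1 J)
      (hlow J le_rfl) hG hb hst (by positivity) (fun i hi => (Finset.mem_filter.1 hi).2)
    have h3 := lev3 hR J hup
    have h16 : ((1 / 4 : ℝ) ^ J) ^ 2 = ((16 : ℝ) ^ J)⁻¹ := by
      rw [← pow_mul, mul_comm J 2, pow_mul, ← inv_pow]; norm_num
    have e : (α / 5 * (1 / 4) ^ J) ^ 2 * (T.card : ℝ) = α ^ 2 * T.card / (25 * 16 ^ J) := by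
      rw [mul_pow, div_pow, h16]
      field_simp
      ring
    rw [e, div_le_iff₀ (by positivity)] at h1
    refine h1.trans ?_
    have h4 : (16 : ℝ) ^ J * (R / (DD J : ℝ)) ≤ 2 ^ 36 * (R ^ (2 / 3 : ℝ) * ρ ^ δ) :=
      h3.trans (mul_le_mul_of_nonneg_left hrho (by positivity))
    calc Ct * ((22 : ℕ) : ℝ) ^ 3 * R / (DD J : ℝ) * M * (25 * 16 ^ J) =
        25 * (Ct * 22 ^ 3) * M * (16 ^ J * (R / (DD J : ℝ))) := by push_cast; ring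
      _ ≤ 25 * (Ct * 22 ^ 3) * M * (2 ^ 36 * (R ^ (2 / 3 : ℝ) * ρ ^ δ)) := mul_le_mul_of_nonneg_left h4 (by positivity)
      _ = _ := by ring
  -- broad part
  set W : ℝ := (3200 * BB ^ 2) * (16 * Cb * 22 ^ 3 + 10 * Ct * 22 ^ 3) * (R ^ (2 / 3 : ℝ) * ρ ^ δ) * M with hW
  have hW0 : 0 ≤ W := by positivity
  have hSb : ∀ j ∈ Finset.range J, ∀ i1 ∈ Finset.range BB, ∀ i2 ∈ Finset.range BB,
      α ^ 2 * (if i1 + 2 ≤ i2 then ((S j i1 i2).card : ℝ) else 0) ≤ (1 / 2) ^ j * W := by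
    intro j hj i1 hi1 i2 hi2
    split_ifs with h12
    · have hjJ := (Finset.mem_range.1 hj).le
      have hSA : S j i1 i2 ⊆ A := Finset.filter_subset _ _
      have h1 := level_broad (β := α / 5 * (1 / 4) ^ j / (8 * BB)) (ρ := ρ) (D := DD j) hc hc2 hδ0 hCb hBpos H hCt HT
        (c1 := 22) (by norm_num) hR hc1C (hA.mono hSA) (hDD1 j) (hlow j hjJ) hG hb hst (Finset.mem_range.1 hi1)
        (Finset.mem_range.1 hi2) h12 (by have : (0 : ℝ) < BB := by exact_mod_cast hBpos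
                                         positivity) (fun i hi => (Finset.mem_filter.1 hi).2) (by
          have : (A.card : ℝ) = ρ * R ^ 2 := by rw [hρ]; field_simp
          rw [← this]
          exact Nat.cast_le.2 (Finset.card_le_card hSA))
      have h2 := lev_sum (M := M) (n := (S j i1 i2).card) (α := α) (c1 := 22) hCb hCt hR hρ0 hM0 hδ hrho j (hlow j hjJ) h1
      refine h2.trans (le_of_eq ?_)
      rw [hW]; push_cast; ring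
    · rw [mul_zero]; positivity
  have hsum : ∑ j ∈ Finset.range J, (1 / 2 : ℝ) ^ j ≤ 2 := by
    rw [geom_sum_eq (by norm_num)]
    have : (0 : ℝ) < (1 / 2) ^ J := by positivity
    rw [div_le_iff_of_neg (by norm_num)]
    linarith
  have hBroad : α ^ 2 * ∑ j ∈ Finset.range J, ∑ i1 ∈ Finset.range BB, ∑ i2 ∈ Finset.range BB,
      (if i1 + 2 ≤ i2 then ((S j i1 i2).card : ℝ) else 0) ≤ 2 * (BB ^ 2 * W) := by
    rw [Finset.mul_sum]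
    have h1 : ∀ j ∈ Finset.range J, α ^ 2 * ∑ i1 ∈ Finset.range BB, ∑ i2 ∈ Finset.range BB,
        (if i1 + 2 ≤ i2 then ((S j i1 i2).card : ℝ) else 0) ≤ (1 / 2) ^ j * (BB ^ 2 * W) := by
      intro j hj
      rw [Finset.mul_sum]
      have h2 : ∀ i1 ∈ Finset.range BB, α ^ 2 * ∑ i2 ∈ Finset.range BB,
          (if i1 + 2 ≤ i2 then ((S j i1 i2).card : ℝ) else 0) ≤ BB * ((1 / 2) ^ j * W) := by
        intro i1 hi1
        rw [Finset.mul_sum]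
        refine (Finset.sum_le_sum fun i2 hi2 => hSb j hj i1 hi1 i2 hi2).trans (le_of_eq ?_)
        rw [Finset.sum_const, Finset.card_range, nsmul_eq_mul]
      refine (Finset.sum_le_sum h2).trans (le_of_eq ?_)
      rw [Finset.sum_const, Finset.card_range, nsmul_eq_mul]
      ring
    refine (Finset.sum_le_sum h1).trans ?_
    rw [← Finset.sum_mul]
    exact mul_le_mul_of_nonneg_right hsum (by positivity)
  calc α ^ 2 * (A.card : ℝ) ≤ α ^ 2 * (T.card + ∑ j ∈ Finset.range J, ∑ i1 ∈ Finset.range BB, ∑ i2 ∈ Finset.range BB,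
      (if i1 + 2 ≤ i2 then ((S j i1 i2).card : ℝ) else 0)) := mul_le_mul_of_nonneg_left hcard (by positivity)
    _ ≤ 25 * (Ct * 22 ^ 3) * 2 ^ 36 * (R ^ (2 / 3 : ℝ) * ρ ^ δ) * M + 2 * (BB ^ 2 * W) := by
        rw [mul_add]; exact add_le_add hTb hBroad
    _ = _ := by rw [hW]; ring

end Vale.Agent.P076.H23
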