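import Mathlib

/-! # P076 / H23 : the broad/narrow selection -/

namespace Vale.Agent.P076.H23

/-- among `B` complex numbers with `s ≤ |∑ z|` there are two non-adjacent ones `≥ s / (8 B)`, or one `≥ s / 4` -/
lemma child {B : ℕ} (hB : 0 < B) (z : ℕ → ℂ) (s : ℝ) (h : s ≤ ‖∑ i ∈ Finset.range B, z i‖) :
    (∃ i ∈ Finset.range B, s / 4 ≤ ‖z i‖) ∨
      ∃ i ∈ Finset.range B, ∃ j ∈ Finset.range B, i + 2 ≤ j ∧ s / (8 * B) ≤ ‖z i‖ ∧ s / (8 * B) ≤ ‖z j‖ := by
  by_contra hc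
  push Not at hc
  obtain ⟨h1, h2⟩ := hc
  obtain ⟨i0, hi0, hm⟩ := Finset.exists_max_image (Finset.range B) (fun i => ‖z i‖) ⟨0, Finset.mem_range.2 hB⟩
  have h3 := h1 i0 hi0
  have hs : 0 < s := by have := norm_nonneg (z i0); linarith
  have hBr : (0 : ℝ) < B := by exact_mod_cast hB
  have hfar : ∀ i ∈ Finset.range B, (i + 2 ≤ i0 ∨ i0 + 2 ≤ i) → ‖z i‖ < s / (8 * B) := by
    intro i hi hd
    rcases hd with hd | hd
    · by_contra hcc
      push Not at hcc
      have := h2 i hi i0 hi0 hd hcc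
      linarith [hm i hi]
    · by_cases hcc : s / (8 * B) ≤ ‖z i0‖
      · exact h2 i0 hi0 i hi hd hcc
      · push Not at hcc
        linarith [hm i hi]
  have hb : ∀ i ∈ Finset.range B, ‖z i‖ ≤ (if i + 1 = i0 ∨ i = i0 ∨ i = i0 + 1 then s / 4 else 0) + s / (8 * B) := by
    intro i hi
    have hp : 0 ≤ s / (8 * B) := by positivity
    split_ifs with hd
    · linarith [h1 i hi]
    · have := hfar i hi (by omega)
      linarith
  have hsum : ∑ i ∈ Finset.range B, ((if i + 1 = i0 ∨ i = i0 ∨ i = i0 + 1 then s / 4 else 0) + s / (8 * B)) ≤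
      3 * (s / 4) + s / 8 := by
    rw [Finset.sum_add_distrib, Finset.sum_const, Finset.card_range, ← Finset.sum_filter, Finset.sum_const]
    have hc : (Finset.filter (fun i => i + 1 = i0 ∨ i = i0 ∨ i = i0 + 1) (Finset.range B)).card ≤ 3 := by
      have hsub : Finset.filter (fun i => i + 1 = i0 ∨ i = i0 ∨ i = i0 + 1) (Finset.range B) ⊆ {i0 - 1, i0, i0 + 1} := by
        intro i hi
        simp only [Finset.mem_filter, Finset.mem_insert, Finset.mem_singleton] at hi ⊢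
        omega
      exact (Finset.card_le_card hsub).trans Finset.card_le_three
    have hc' : ((Finset.filter (fun i => i + 1 = i0 ∨ i = i0 ∨ i = i0 + 1) (Finset.range B)).card : ℝ) ≤ 3 := by
      exact_mod_cast hc
    rw [nsmul_eq_mul, nsmul_eq_mul]
    have e : (B : ℝ) * (s / (8 * B)) = s / 8 := by field_simp
    rw [e]
    nlinarith
  have := (norm_sum_le _ _).trans ((Finset.sum_le_sum hb).trans hsum)
  linarith

/-- the selection: `f j k` = value of the piece of the cap `k` of level `j` -/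
lemma select {B : ℕ} (hB : 0 < B) (f : ℕ → ℤ → ℂ) (hf : ∀ j k, f j k = ∑ i ∈ Finset.range B, f (j + 1) (B * k + i))
    (a : ℝ) (k0 : ℤ) (h0 : a ≤ ‖f 0 k0‖) (J : ℕ) :
    (∃ k, a * (1 / 4) ^ J ≤ ‖f J k‖) ∨ ∃ j < J, ∃ k : ℤ, ∃ i1 ∈ Finset.range B, ∃ i2 ∈ Finset.range B, i1 + 2 ≤ i2 ∧
      a * (1 / 4) ^ j / (8 * B) ≤ ‖f (j + 1) (B * k + i1)‖ ∧ a * (1 / 4) ^ j / (8 * B) ≤ ‖f (j + 1) (B * k + i2)‖ := by
  induction J with
  | zero => exact Or.inl ⟨k0, by simpa using h0⟩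
  | succ J ih =>
    rcases ih with ⟨k, hk⟩ | ⟨j, hj, h⟩
    · rw [hf J k] at hk
      rcases child hB (fun i => f (J + 1) (B * k + i)) _ hk with ⟨i, hi, h⟩ | ⟨i, hi, i', hi', hd, h, h'⟩
      · left
        refine ⟨B * k + i, ?_⟩
        rw [pow_succ]
        linarith
      · right
        exact ⟨J, Nat.lt_succ_self J, k, i, hi, i', hi', hd, h, h'⟩
    · right
      exact ⟨j, Nat.lt_succ_of_lt hj, h⟩

end Vale.Agent.P076.H23
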