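import Vale.Agent.P076.H23.One2
import Vale.Agent.P076.H23.Sel

/-! # P076 / H23 : one level -/

open MeasureTheory

namespace Vale.Agent.P076.H23

variable {C1 : ℝ} {c1 : ℕ} {R : ℝ} {A : Finset Ix} {x : Ix → E 2} {t : Ix → ℝ} {D B : ℕ}

/-- strip of the rescaled problem -/
lemma strip_resc {c : ℝ} (hc : 0 < c) (hR : 1 ≤ R) (hD : 1 ≤ D) (hDR : ((D : ℝ) ^ 5) ≤ R ^ 2) :
    (D : ℝ) * R ^ (c / 5 - 1 / 2) ≤ (R / (D : ℝ) ^ 2) ^ (c - 1 / 2) := by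
  have hDr : (1 : ℝ) ≤ D := by exact_mod_cast hD
  have hD0 : (0 : ℝ) < D := by linarith
  have hR0 : 0 < R := by linarith
  have h1 : (D : ℝ) ^ (2 * c) ≤ R ^ (4 * c / 5) := by
    have h2 : ((D : ℝ) ^ 5) ^ (2 * c / 5) ≤ (R ^ 2) ^ (2 * c / 5) := Real.rpow_le_rpow (by positivity) hDR (by positivity)
    rw [← Real.rpow_natCast, ← Real.rpow_natCast, ← Real.rpow_mul hD0.le, ← Real.rpow_mul hR0.le] at h2
    have e1 : ((5 : ℕ) : ℝ) * (2 * c / 5) = 2 * c := by push_cast; ring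
    have e2 : ((2 : ℕ) : ℝ) * (2 * c / 5) = 4 * c / 5 := by push_cast; ring
    rwa [e1, e2] at h2
  have h2 : (R / (D : ℝ) ^ 2) ^ (c - 1 / 2) = R ^ (c - 1 / 2) * ((D : ℝ) / (D : ℝ) ^ (2 * c)) := by
    rw [Real.div_rpow hR0.le (by positivity), div_eq_mul_inv, ← Real.rpow_natCast, ← Real.rpow_mul hD0.le,
      ← Real.rpow_neg hD0.le]
    congr 1
    have e : -(((2 : ℕ) : ℝ) * (c - 1 / 2)) = 1 - 2 * c := by push_cast; ring
    rw [e, Real.rpow_sub hD0, Real.rpow_one]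
  have h3 : R ^ (c - 1 / 2) = R ^ (c / 5 - 1 / 2) * R ^ (4 * c / 5) := by
    rw [← Real.rpow_add hR0]; congr 1; ring
  rw [h2, h3]
  have h4 : 0 < (D : ℝ) ^ (2 * c) := by positivity
  have h5 : (1 : ℝ) ≤ R ^ (4 * c / 5) / (D : ℝ) ^ (2 * c) := by rw [le_div_iff₀ h4]; linarith
  have h6 : 0 ≤ (D : ℝ) * R ^ (c / 5 - 1 / 2) := by positivity
  calc (D : ℝ) * R ^ (c / 5 - 1 / 2) ≤ ((D : ℝ) * R ^ (c / 5 - 1 / 2)) * (R ^ (4 * c / 5) / (D : ℝ) ^ (2 * c)) :=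
        le_mul_of_one_le_right h6 h5
    _ = _ := by ring

lemma D2_le (hD : 1 ≤ D) (hR : 1 ≤ R) (hDR : ((D : ℝ) ^ 5) ≤ R ^ 2) : (D : ℝ) ^ 2 ≤ R := by
  have hDr : (1 : ℝ) ≤ D := by exact_mod_cast hD
  have h1 : ((D : ℝ) ^ 2) ^ 2 ≤ R ^ 2 := by
    calc ((D : ℝ) ^ 2) ^ 2 = (D : ℝ) ^ 4 := by ring
      _ ≤ (D : ℝ) ^ 5 := pow_le_pow_right₀ hDr (by norm_num)
      _ ≤ R ^ 2 := hDR
  exact le_of_sq_le_sq h1 (by linarith)
where
  le_of_sq_le_sq {a b : ℝ} (h : a ^ 2 ≤ b ^ 2) (hb : 0 ≤ b) : a ≤ b := by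
    exact (abs_le_of_sq_le_sq' h hb).2

/-- centre of the cap -/
noncomputable def ctrOf (D : ℕ) (k : ℤ) (b : ℝ) : E 2 := WithLp.toLp 2 ![(k : ℝ) / D, b]

lemma ctrOf_0 (D : ℕ) (k : ℤ) (b : ℝ) : ctrOf D k b 0 = (k : ℝ) / D := rfl
lemma ctrOf_1 (D : ℕ) (k : ℤ) (b : ℝ) : ctrOf D k b 1 = b := rfl

lemma ctrOf_le {k : ℤ} {b : ℝ} (hb : |b| ≤ 3) (hD : 1 ≤ D) {η : E 2} (h0 : |η 0| ≤ 2) (hk : ⌊(D : ℝ) * η 0⌋ = k) (i : Fin 2) :
    |ctrOf D k b i| ≤ 3 := by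
  have hDr : (1 : ℝ) ≤ D := by exact_mod_cast hD
  have hD0 : (0 : ℝ) < D := by linarith
  fin_cases i
  · simp only [Fin.zero_eta, ctrOf_0]
    have h1 := Int.floor_le ((D : ℝ) * η 0)
    have h2 := Int.lt_floor_add_one ((D : ℝ) * η 0)
    rw [hk] at h1 h2
    have h3 := abs_le.1 h0
    rw [abs_le, le_div_iff₀ hD0, div_le_iff₀ hD0]
    constructor <;> nlinarith
  · simpa only [Fin.mk_one, ctrOf_1] using hb

lemma floor_child (hB : 0 < B) {k : ℤ} {i : ℕ} (hi : i < B) {η : E 2} (h : ⌊((B : ℝ) * D) * η 0⌋ = B * k + i) :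
    ⌊(D : ℝ) * η 0⌋ = k := by
  have hBz : (0 : ℤ) < B := by exact_mod_cast hB
  have h1 : ⌊(B : ℝ) * ((D : ℝ) * η 0)⌋ / (B : ℤ) = ⌊(D : ℝ) * η 0⌋ := Int.natCast_mul_floor_div_cancel hB.ne' _
  rw [← h1, ← mul_assoc, h, Int.add_comm, Int.add_mul_ediv_left _ _ hBz.ne',
    Int.ediv_eq_zero_of_lt (by positivity) (by exact_mod_cast hi), zero_add]

/-- the broad points of one level, one pair of children -/
theorem level_broad {c δ Cb Ct ρ β b : ℝ} (hc : 0 < c) (hc2 : c ≤ 1 / 2) (hδ : 0 < δ) (hCb : 0 ≤ Cb) (hB : 0 < B)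
    (H : BSat c δ (1 / B) Cb) (hCt : 0 ≤ Ct) (HT : TRV Ct) (hc1 : 1 ≤ c1) (hR : 1 ≤ R)
    (hc1C : 392 * C1 ≤ (c1 : ℝ) ^ 3) (hA : Cf C1 R A x t) (hD : 1 ≤ D) (hDR : ((D : ℝ) ^ 5) ≤ R ^ 2)
    {G : E 2 → ℂ} (hG : Pf G) (hb : |b| ≤ 3) (hst : ∀ η, G η ≠ 0 → |η 1 - b| ≤ R ^ (c / 5 - 1 / 2))
    {i1 i2 : ℕ} (hi1 : i1 < B) (hi2 : i2 < B) (h12 : i1 + 2 ≤ i2) (hβ : 0 < β)
    (hbig : ∀ i ∈ A, ∃ k : ℤ, β ≤ ‖evo (cap (B * D) (B * k + i1) G) (x i) (t i) 0‖ ∧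
      β ≤ ‖evo (cap (B * D) (B * k + i2) G) (x i) (t i) 0‖) (hρ : (A.card : ℝ) ≤ ρ * R ^ 2) :
    β ^ 2 * A.card ≤ (16 * Cb * c1 ^ 3 * ((D : ℝ) * ((D * R) ^ (2 / 3 : ℝ)) * ((D : ℝ) ^ 2)⁻¹ * (D * ρ) ^ δ) +
      10 * Ct * c1 ^ 3 * (R / D * (R / (D : ℝ) ^ 2) ^ (-(12 / 25) : ℝ))) * (2 * ∫ η, ‖G η‖ ^ 2) := by
  classical
  have hDr : (1 : ℝ) ≤ D := by exact_mod_cast hD
  have hD0 : (0 : ℝ) < D := by linarith
  have hR0 : 0 < R := by linarith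
  have hBr : (0 : ℝ) < B := by exact_mod_cast hB
  have hD2 := D2_le hD hR hDR
  have hch : ∀ i : Ix, ∃ k : ℤ, i ∈ A → β ≤ ‖evo (cap (B * D) (B * k + i1) G) (x i) (t i) 0‖ ∧
      β ≤ ‖evo (cap (B * D) (B * k + i2) G) (x i) (t i) 0‖ := by
    intro i
    by_cases hi : i ∈ A
    · obtain ⟨k, hk⟩ := hbig i hi
      exact ⟨k, fun _ => hk⟩
    · exact ⟨0, fun h => absurd h hi⟩
  choose kk hkk using hch
  set E0 : ℝ := 16 * Cb * c1 ^ 3 * ((D : ℝ) * ((D * R) ^ (2 / 3 : ℝ)) * ((D : ℝ) ^ 2)⁻¹ * (D * ρ) ^ δ) +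
      10 * Ct * c1 ^ 3 * (R / D * (R / (D : ℝ) ^ 2) ^ (-(12 / 25) : ℝ)) with hE0
  have hone : ∀ k ∈ A.image kk, β ^ 2 * ((A.filter fun i => kk i = k).card : ℝ) ≤
      E0 * ((∫ η, ‖cap (B * D) (B * k + i1) G η‖ ^ 2) + ∫ η, ‖cap (B * D) (B * k + i2) G η‖ ^ 2) := by
    intro k hk
    obtain ⟨i, hi, hik⟩ := Finset.mem_image.1 hk
    have hne : ∃ η, cap (B * D) (B * k + i1) G η ≠ 0 := by
      by_contra hcon
      push Not at hcon
      have h1 := (hkk i hi).1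
      rw [hik] at h1
      have h2 : evo (cap (B * D) (B * k + i1) G) (x i) (t i) 0 = 0 := by
        unfold evo
        simp_rw [hcon, mul_zero, integral_zero]
      rw [h2, norm_zero] at h1
      linarith
    obtain ⟨η0, hη0⟩ := hne
    obtain ⟨hf0, hG0⟩ := cap_ne hη0
    have hctr := ctrOf_le hb hD (hG.s0 η0 hG0) (floor_child hB hi1 hf0)
    have hloc : ∀ i' : ℕ, i' < B → ∀ η, cap (B * D) (B * k + i') G η ≠ 0 →
        |(D : ℝ) * (η 0 - ctrOf D k b 0)| ≤ 1 ∧ |(D : ℝ) * (η 1 - ctrOf D k b 1)| ≤ (R / (D : ℝ) ^ 2) ^ (c - 1 / 2) ∧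
          (B : ℝ) * ((D : ℝ) * (η 0 - ctrOf D k b 0)) < i' + 1 ∧ (i' : ℝ) ≤ B * ((D : ℝ) * (η 0 - ctrOf D k b 0)) := by
      intro i' hi' η hη
      obtain ⟨hf, hGη⟩ := cap_ne hη
      have hk' := floor_child hB hi' hf
      have e : (D : ℝ) * (η 0 - ctrOf D k b 0) = D * η 0 - k := by
        rw [ctrOf_0]; field_simp
      rw [e, ctrOf_1]
      have g1 := Int.floor_le ((D : ℝ) * η 0)
      have g2 := Int.lt_floor_add_one ((D : ℝ) * η 0)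
      rw [hk'] at g1 g2
      have g3 := Int.floor_le (((B : ℝ) * D) * η 0)
      have g4 := Int.lt_floor_add_one (((B : ℝ) * D) * η 0)
      rw [hf] at g3 g4
      push_cast at g3 g4
      refine ⟨by rw [abs_le]; constructor <;> linarith, ?_, by nlinarith, by nlinarith⟩
      rw [abs_mul, abs_of_pos hD0]
      exact (mul_le_mul_of_nonneg_left (hst η hGη) hD0.le).trans (strip_resc hc hR hD hDR)
    have hP1 := hG.cap (B * D) (B * k + i1)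
    have hP2 := hG.cap (B * D) (B * k + i2)
    refine one_broad (a' := (i1 + 1) / B) (ρ := ρ) hδ hCb H hCt HT hc2 hc1 hc1C (hA.mono (Finset.filter_subset _ _)) hD
      hD2 hctr hP1.meas hP1.bdd hP2.meas hP2.bdd (fun η hη => (hloc i1 hi1 η hη).1) (fun η hη => (hloc i1 hi1 η hη).2.1)
      (fun η hη => (hloc i2 hi2 η hη).1) (fun η hη => (hloc i2 hi2 η hη).2.1) (fun η hη => ?_) (fun η hη => ?_) hβ.le
      (fun i hi => ?_) ?_
    · rw [le_div_iff₀ hBr]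
      have := (hloc i1 hi1 η hη).2.2.1
      linarith
    · have := (hloc i2 hi2 η hη).2.2.2
      rw [← add_div, div_le_iff₀ hBr]
      have h12r : (i1 : ℝ) + 2 ≤ i2 := by exact_mod_cast h12
      linarith
    · rw [Finset.mem_filter] at hi
      have := hkk i hi.1
      rwa [hi.2] at this
    · refine le_trans ?_ hρ
      exact Nat.cast_le.2 (Finset.card_le_card (Finset.filter_subset _ _))
  have hρ0 : 0 ≤ ρ := by
    by_contra hneg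
    push Not at hneg
    have : (0 : ℝ) ≤ A.card := Nat.cast_nonneg _
    nlinarith [mul_neg_of_neg_of_pos hneg (by positivity : 0 < R ^ 2)]
  have hE00 : 0 ≤ E0 := by positivity
  have hA1 : A.card = ∑ k ∈ A.image kk, (A.filter fun i => kk i = k).card := Finset.card_eq_sum_card_image kk A
  have hsumc : ∀ i' : ℕ, ∑ k ∈ A.image kk, ∫ η, ‖cap (B * D) (B * k + i') G η‖ ^ 2 ≤ ∫ η, ‖G η‖ ^ 2 := by
    intro i'
    have hinj : Set.InjOn (fun k : ℤ => (B : ℤ) * k + i') (A.image kk) := by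
      intro k _ k' _ h
      simp only at h
      have : (B : ℤ) * k = B * k' := by linarith
      exact mul_left_cancel₀ (by exact_mod_cast hB.ne') this
    have h1 := sum_cap_le hG ((B : ℝ) * D) ((A.image kk).image fun k : ℤ => (B : ℤ) * k + i')
    rw [Finset.sum_image hinj] at h1
    exact h1
  rw [hA1]
  push_cast
  rw [Finset.mul_sum]
  refine (Finset.sum_le_sum hone).trans ?_
  rw [← Finset.mul_sum, Finset.sum_add_distrib]
  refine mul_le_mul_of_nonneg_left ?_ hE00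
  linarith [hsumc i1, hsumc i2]

/-- the points at the last level -/
theorem level_triv {c Ct β b : ℝ} (hc : 0 < c) (hc2 : c ≤ 1 / 2) (hCt : 0 ≤ Ct) (HT : TRV Ct) (hR : 1 ≤ R)
    (hc1C : 392 * C1 ≤ (c1 : ℝ) ^ 3) (hA : Cf C1 R A x t) (hD : 1 ≤ D) (hDR : ((D : ℝ) ^ 5) ≤ R ^ 2)
    {G : E 2 → ℂ} (hG : Pf G) (hb : |b| ≤ 3) (hst : ∀ η, G η ≠ 0 → |η 1 - b| ≤ R ^ (c / 5 - 1 / 2)) (hβ : 0 < β)
    (hbig : ∀ i ∈ A, ∃ k : ℤ, β ≤ ‖evo (cap D k G) (x i) (t i) 0‖) :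
    β ^ 2 * A.card ≤ Ct * c1 ^ 3 * R / D * ∫ η, ‖G η‖ ^ 2 := by
  classical
  have hDr : (1 : ℝ) ≤ D := by exact_mod_cast hD
  have hD0 : (0 : ℝ) < D := by linarith
  have hR0 : 0 < R := by linarith
  have hD2 := D2_le hD hR hDR
  have hR' : 1 ≤ R / (D : ℝ) ^ 2 := by rw [le_div_iff₀ (by positivity)]; linarith
  have hch : ∀ i : Ix, ∃ k : ℤ, i ∈ A → β ≤ ‖evo (cap D k G) (x i) (t i) 0‖ := by
    intro i
    by_cases hi : i ∈ A
    · obtain ⟨k, hk⟩ := hbig i hi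
      exact ⟨k, fun _ => hk⟩
    · exact ⟨0, fun h => absurd h hi⟩
  choose kk hkk using hch
  have hone : ∀ k ∈ A.image kk, β ^ 2 * ((A.filter fun i => kk i = k).card : ℝ) ≤
      (Ct * c1 ^ 3 * R / D) * ∫ η, ‖cap D k G η‖ ^ 2 := by
    intro k hk
    obtain ⟨i, hi, hik⟩ := Finset.mem_image.1 hk
    have hne : ∃ η, cap D k G η ≠ 0 := by
      by_contra hcon
      push Not at hcon
      have h1 := hkk i hi
      rw [hik] at h1
      have h2 : evo (cap D k G) (x i) (t i) 0 = 0 := by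
        unfold evo
        simp_rw [hcon, mul_zero, integral_zero]
      rw [h2, norm_zero] at h1
      linarith
    obtain ⟨η0, hη0⟩ := hne
    obtain ⟨hf0, hG0⟩ := cap_ne hη0
    have hctr := ctrOf_le hb hD (hG.s0 η0 hG0) hf0
    have hloc : ∀ η, cap D k G η ≠ 0 →
        |(D : ℝ) * (η 0 - ctrOf D k b 0)| ≤ 1 ∧ |(D : ℝ) * (η 1 - ctrOf D k b 1)| ≤ 1 := by
      intro η hη
      obtain ⟨hf, hGη⟩ := cap_ne hη
      have e : (D : ℝ) * (η 0 - ctrOf D k b 0) = D * η 0 - k := by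
        rw [ctrOf_0]; field_simp
      rw [e, ctrOf_1]
      have g1 := Int.floor_le ((D : ℝ) * η 0)
      have g2 := Int.lt_floor_add_one ((D : ℝ) * η 0)
      rw [hf] at g1 g2
      refine ⟨by rw [abs_le]; constructor <;> linarith, ?_⟩
      rw [abs_mul, abs_of_pos hD0]
      exact ((mul_le_mul_of_nonneg_left (hst η hGη) hD0.le).trans (strip_resc hc hR hD hDR)).trans
        (Real.rpow_le_one_of_one_le_of_nonpos hR' (by linarith))
    have hP1 := hG.cap D k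
    refine one_triv HT hc1C (hA.mono (Finset.filter_subset _ _)) hD hD2 hctr hP1.meas hP1.bdd
      (fun η hη => (hloc η hη).1) (fun η hη => (hloc η hη).2) hβ.le (fun i hi => ?_)
    rw [Finset.mem_filter] at hi
    have := hkk i hi.1
    rwa [hi.2] at this
  have hA1 : A.card = ∑ k ∈ A.image kk, (A.filter fun i => kk i = k).card := Finset.card_eq_sum_card_image kk A
  have hE00 : 0 ≤ Ct * c1 ^ 3 * R / D := by positivity
  rw [hA1]
  push_cast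
  rw [Finset.mul_sum]
  refine (Finset.sum_le_sum hone).trans ?_
  rw [← Finset.mul_sum]
  exact mul_le_mul_of_nonneg_left (sum_cap_le hG _ _) hE00

end Vale.Agent.P076.H23
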