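import Vale.Agent.P076.H23.Fin

/-! # P076 / H23 : **TS.NAR**, `stNAR : StBS → StTS` -/

open MeasureTheory

namespace Vale.Agent.P076.H23

open Vale.Agent.P122.C2 Vale.Agent.P076.ASM

lemma card_Icc_le (z r : ℝ) (hr : 1 ≤ r) : ((Finset.Icc ⌈z - 2 * r⌉ ⌊z + 2 * r⌋).card : ℝ) ≤ 5 * r := by
  rw [Int.card_Icc]
  rcases le_or_gt 0 (⌊z + 2 * r⌋ + 1 - ⌈z - 2 * r⌉) with h | h
  · have h1 : (((⌊z + 2 * r⌋ + 1 - ⌈z - 2 * r⌉).toNat : ℕ) : ℝ) = ((⌊z + 2 * r⌋ + 1 - ⌈z - 2 * r⌉ : ℤ) : ℝ) := by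
      exact_mod_cast Int.toNat_of_nonneg h
    rw [h1]
    push_cast
    have h2 := Int.floor_le (z + 2 * r)
    have h3 := Int.le_ceil (z - 2 * r)
    linarith
  · rw [Int.toNat_of_nonpos h.le]
    push_cast
    linarith

lemma lattice_count (U : E 2 ≃ₗᵢ[ℝ] E 2) (A : Finset Ix) (r : ℝ) (hr : 1 ≤ r) (y : E 2) :
    ((A.filter fun i => ∀ k, |U (lp i) k - y k| ≤ r).card : ℝ) ≤ 25 * r ^ 2 := by
  classical
  set z : E 2 := U.symm y with hz
  have hsub : (A.filter fun i => ∀ k, |U (lp i) k - y k| ≤ r) ⊆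
      Fintype.piFinset fun k => Finset.Icc ⌈z k - 2 * r⌉ ⌊z k + 2 * r⌋ := by
    intro i hi
    rw [Finset.mem_filter] at hi
    rw [Fintype.mem_piFinset]
    have h1 : ‖U (lp i) - y‖ ≤ 2 * r := by
      rw [EuclideanSpace.norm_eq, Fin.sum_univ_two]
      apply Real.sqrt_le_iff.2
      refine ⟨by linarith, ?_⟩
      simp only [Real.norm_eq_abs, PiLp.sub_apply]
      have a0 := hi.2 0
      have a1 := hi.2 1
      have b0 := abs_nonneg (U (lp i) 0 - y 0)
      have b1 := abs_nonneg (U (lp i) 1 - y 1)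
      nlinarith
    have h2 : ‖lp i - z‖ ≤ 2 * r := by
      have : U (lp i - z) = U (lp i) - y := by rw [map_sub, hz, LinearIsometryEquiv.apply_symm_apply]
      rw [← U.norm_map, this]
      exact h1
    intro k
    have h3 : |lp i k - z k| ≤ 2 * r := by
      have := (PiLp.norm_apply_le (lp i - z) k).trans h2
      simpa [Real.norm_eq_abs] using this
    have h4 := abs_le.1 h3
    have e : lp i k = (i k : ℝ) := rfl
    rw [e] at h4
    rw [Finset.mem_Icc, Int.ceil_le, Int.le_floor]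
    constructor <;> linarith
  have h1 : ((A.filter fun i => ∀ k, |U (lp i) k - y k| ≤ r).card : ℝ) ≤
      ((Fintype.piFinset fun k => Finset.Icc ⌈z k - 2 * r⌉ ⌊z k + 2 * r⌋).card : ℝ) :=
    Nat.cast_le.2 (Finset.card_le_card hsub)
  rw [Fintype.card_piFinset, Fin.prod_univ_two, Nat.cast_mul] at h1
  refine h1.trans ?_
  calc _ ≤ (5 * r) * (5 * r) := mul_le_mul (card_Icc_le _ _ hr) (card_Icc_le _ _ hr) (Nat.cast_nonneg _) (by linarith)
    _ = _ := by ring

lemma BSat.mono_c {c c' δ ν C : ℝ} (h : BSat c δ ν C) (hcc : c' ≤ c) : BSat c' δ ν C := by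
  intro R g α a G₁ G₂ A x t hR hg hg2 hα hs1 hs2 ha1 ha2 hP hb
  have hw : R ^ (c' - 1 / 2) ≤ R ^ (c - 1 / 2) := Real.rpow_le_rpow_of_exponent_le hR (by linarith)
  exact h R g α a G₁ G₂ A x t hR hg hg2 hα ⟨hs1.meas, hs1.bdd, hs1.s0, fun η hη => (hs1.s1 η hη).trans hw⟩
    ⟨hs2.meas, hs2.bdd, hs2.s0, fun η hη => (hs2.s1 η hη).trans hw⟩ ha1 ha2 hP hb

lemma trv_exists : ∃ C : ℝ, 0 ≤ C ∧ TRV C := by
  obtain ⟨C, hC, h⟩ := Vale.Agent.P076.H780.triv
  exact ⟨C, hC, fun R G A x t => h R G A x t⟩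

theorem stNAR : StNAR := by
  intro hBS
  obtain ⟨c, δ, hc, hδ, hB⟩ := hBS
  obtain ⟨Cb, hCb⟩ := hB (1 / BB) (by have : (0 : ℝ) < BB := by exact_mod_cast BB_pos
                                      positivity)
  have H0 : BSat c δ (1 / BB) Cb := hCb
  set c' : ℝ := min c (1 / 2) with hc'
  set δ' : ℝ := min δ (1 / 75) with hδ'
  have hc0 : 0 < c' := lt_min hc (by norm_num)
  have hδ0 : 0 < δ' := lt_min hδ (by norm_num)
  have H : BSat c' δ' (1 / BB) (max Cb 0) := (H0.mono_c (min_le_left _ _)).weaken hδ0 (min_le_left _ _)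
  obtain ⟨Ct, hCt, HT⟩ := trv_exists
  obtain ⟨C, hC, K⟩ := core hc0 (min_le_right _ _) hδ0 (min_le_right _ _) (le_max_right _ _) H hCt HT
  refine ⟨c' / 5, C, δ', by positivity, hδ0, ?_⟩
  intro R G A t α θ b hR hα hG hGr hst
  have hR0 : 0 < R := by linarith
  have hM0 : 0 ≤ ∫ η, ‖G η‖ ^ 2 := integral_nonneg fun _ => by positivity
  rcases A.eq_empty_or_nonempty with he | hAne
  · rw [he]
    simp only [Finset.card_empty, Nat.cast_zero, mul_zero]
    positivity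
  rcases hα.eq_or_lt with h0 | hα
  · rw [← h0]
    simp only [ne_eq, OfNat.ofNat_ne_zero, not_false_eq_true, zero_pow, zero_mul]
    positivity
  -- `G` is not zero
  obtain ⟨k0, hk0⟩ := hAne
  have hne : ∃ η, G η ≠ 0 := by
    by_contra hcon
    push Not at hcon
    have h1 := hGr.big k0 hk0
    have h2 : evo G (lp k0) (t k0) 0 = 0 := by
      unfold evo
      simp_rw [hcon, mul_zero, integral_zero]
    rw [h2, norm_zero] at h1
    linarith
  obtain ⟨ηs, hηs⟩ := hne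
  obtain ⟨U, hU⟩ := exists_strip_rot θ
  have hw1 : R ^ (c' / 5 - 1 / 2) ≤ 1 := Real.rpow_le_one_of_one_le_of_nonpos hR (by
    have : c' ≤ 1 / 2 := min_le_right _ _
    linarith)
  have hb3 : |b| ≤ 3 := by
    have h1 := hst ηs hηs
    have h2 := hG.supp ηs hηs
    rw [← hU] at h1
    have h3 : |U ηs 1| ≤ 2 := by
      have := PiLp.norm_apply_le (U ηs) 1
      rw [U.norm_map, Real.norm_eq_abs] at this
      linarith
    have h4 : |b| ≤ |U ηs 1 - b| + |U ηs 1| := by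
      calc |b| = |U ηs 1 - (U ηs 1 - b)| := by rw [sub_sub_cancel]
        _ ≤ |U ηs 1| + |U ηs 1 - b| := abs_sub _ _
        _ = _ := add_comm _ _
    linarith
  have hsupp : ∀ η, G (U.symm η) ≠ 0 → ∀ i, |η i| ≤ 2 := by
    intro η hη i
    have h1 := hG.supp _ hη
    have h2 := PiLp.norm_apply_le η i
    rw [U.symm.norm_map] at h1
    rw [Real.norm_eq_abs] at h2
    linarith
  have hPf : Pf (fun η => G (U.symm η)) := by
    refine ⟨hG.meas.comp U.symm.continuous.measurable, ?_, fun η hη => hsupp η hη 0, fun η hη => (hsupp η hη 1).trans (by norm_num)⟩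
    obtain ⟨q, hq⟩ := hG.bdd
    exact ⟨q, fun η => hq _⟩
  have hst' : ∀ η, G (U.symm η) ≠ 0 → |η 1 - b| ≤ R ^ (c' / 5 - 1 / 2) := by
    intro η hη
    have h1 := hst _ hη
    rwa [← hU, LinearIsometryEquiv.apply_symm_apply] at h1
  have hCf : Cf 25 R A (fun i => U (lp i)) t := by
    refine ⟨hGr.t0, hGr.tR, fun r y s hr => ?_⟩
    refine le_trans ?_ (lattice_count U A r hr y)
    refine Nat.cast_le.2 (Finset.card_le_card fun i hi => ?_)
    rw [Finset.mem_filter] at hi ⊢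
    exact ⟨hi.1, hi.2.1⟩
  have hfin := K R (fun η => G (U.symm η)) A (fun i => U (lp i)) t α b hR hα hPf hb3 hst' hCf ⟨k0, hk0⟩ (fun i hi => by
    rw [evo_rot]
    exact hGr.big i hi)
  rwa [int_rot U G] at hfin

end Vale.Agent.P076.H23
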