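import Vale.Agent.P076.H23.Cnt
import Vale.Agent.P076.H23.Cap

/-! # P076 / H23 : the contribution of one cap -/

open MeasureTheory

namespace Vale.Agent.P076.H23

/-- `StBS` for fixed parameters -/
def BSat (c δ ν C : ℝ) : Prop := ∀ (R g α a : ℝ) (G₁ G₂ : E 2 → ℂ) (A : Finset Ix)
  (x : Ix → E 2) (t : Ix → ℝ), 1 ≤ R → 1 ≤ g → g ≤ R ^ (12 / 25 : ℝ) → 0 ≤ α → Str (R ^ (c - 1 / 2)) G₁ →
    Str (R ^ (c - 1 / 2)) G₂ → (∀ η, G₁ η ≠ 0 → η 0 ≤ a) → (∀ η, G₂ η ≠ 0 → a + ν ≤ η 0) → Pt g R A x t →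
    (∀ i ∈ A, α ≤ ‖evo G₁ (x i) (t i) 0‖ ∧ α ≤ ‖evo G₂ (x i) (t i) 0‖) →
      α ^ 2 * A.card ≤ C * (g * R) ^ (2 / 3 : ℝ) * (min 1 ((A.card : ℝ) / (g * R ^ 2))) ^ δ *
        ((∫ η, ‖G₁ η‖ ^ 2) + ∫ η, ‖G₂ η‖ ^ 2)

lemma BSat.weaken {c δ δ' ν C : ℝ} (h : BSat c δ ν C) (h0 : 0 < δ') (h1 : δ' ≤ δ) : BSat c δ' ν (max C 0) := by
  intro R g α a G₁ G₂ A x t hR hg hg2 hα hs1 hs2 ha1 ha2 hP hb
  refine (h R g α a G₁ G₂ A x t hR hg hg2 hα hs1 hs2 ha1 ha2 hP hb).trans ?_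
  have hq : (0 : ℝ) ≤ min 1 ((A.card : ℝ) / (g * R ^ 2)) := le_min zero_le_one (by positivity)
  have h2 : (min 1 ((A.card : ℝ) / (g * R ^ 2))) ^ δ ≤ (min 1 ((A.card : ℝ) / (g * R ^ 2))) ^ δ' :=
    Real.rpow_le_rpow_of_exponent_ge' hq (min_le_left _ _) h0.le h1
  have h3 : 0 ≤ (∫ η, ‖G₁ η‖ ^ 2) + ∫ η, ‖G₂ η‖ ^ 2 :=
    add_nonneg (integral_nonneg fun _ => by positivity) (integral_nonneg fun _ => by positivity)
  refine mul_le_mul_of_nonneg_right ?_ h3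
  calc C * (g * R) ^ (2 / 3 : ℝ) * (min 1 ((A.card : ℝ) / (g * R ^ 2))) ^ δ
      ≤ max C 0 * (g * R) ^ (2 / 3 : ℝ) * (min 1 ((A.card : ℝ) / (g * R ^ 2))) ^ δ := by
        gcongr
        exact le_max_left _ _
    _ ≤ max C 0 * (g * R) ^ (2 / 3 : ℝ) * (min 1 ((A.card : ℝ) / (g * R ^ 2))) ^ δ' := by
        refine mul_le_mul_of_nonneg_left h2 ?_
        have := le_max_right C 0
        positivity

/-- the trivial bound -/
def TRV (C : ℝ) : Prop := ∀ (R : ℝ) (G : E 2 → ℂ) (A : Finset Ix) (x : Ix → E 2) (t : Ix → ℝ), 1 ≤ R →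
    Measurable G → (∃ b : ℝ, ∀ η, ‖G η‖ ≤ b) → (∀ η, G η ≠ 0 → ∀ i, |η i| ≤ 1) →
      (∀ i ∈ A, 0 ≤ t i) → (∀ i ∈ A, t i ≤ R) →
        (∀ i ∈ A, ∀ j ∈ A, (∀ k, ⌊x i k⌋ = ⌊x j k⌋) → ⌊t i⌋ = ⌊t j⌋ → i = j) →
          ∑ i ∈ A, ‖evo G (x i) (t i) 0‖ ^ 2 ≤ C * R * ∫ η, ‖G η‖ ^ 2

lemma class_count {κ : Type*} [DecidableEq κ] (A F T : Finset Ix) (cell : Ix → κ) (m : ℕ)
    (hinj : ∀ i ∈ F, ∀ j ∈ F, cell i = cell j → i = j) (hm : ∀ i ∈ F, m ≤ (A.filter fun j => cell j = cell i).card)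
    (hT : ∀ i ∈ F, (A.filter fun j => cell j = cell i) ⊆ T) : m * F.card ≤ T.card := by
  classical
  have h1 : (F.biUnion fun i => A.filter fun j => cell j = cell i).card =
      ∑ i ∈ F, (A.filter fun j => cell j = cell i).card := by
    refine Finset.card_biUnion fun i hi j hj hij => ?_
    simp only [Function.onFun]
    rw [Finset.disjoint_left]
    intro q hq hq'
    rw [Finset.mem_filter] at hq hq'
    exact hij (hinj i hi j hj (hq.2.symm.trans hq'.2))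
  have h2 : (F.biUnion fun i => A.filter fun j => cell j = cell i).card ≤ T.card :=
    Finset.card_le_card (Finset.biUnion_subset.2 hT)
  rw [h1] at h2
  refine le_trans ?_ h2
  rw [mul_comm, ← smul_eq_mul, ← Finset.sum_const]
  exact Finset.sum_le_sum hm

noncomputable def cellOf (D : ℝ) (c : E 2) (x : Ix → E 2) (t : Ix → ℝ) (i : Ix) : (Fin 2 → ℤ) × ℤ :=
  (fun k => ⌊nx D c x t i k⌋, ⌊t i / D ^ 2⌋)

lemma cell_close {D : ℝ} {c : E 2} {x : Ix → E 2} {t : Ix → ℝ} {i j : Ix}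
    (h : cellOf D c x t j = cellOf D c x t i) :
    (∀ k, |nx D c x t j k - nx D c x t i k| ≤ 1) ∧ |t j / D ^ 2 - t i / D ^ 2| ≤ 1 := by
  unfold cellOf at h
  rw [Prod.mk.injEq] at h
  exact ⟨fun k => (Int.abs_sub_lt_one_of_floor_eq_floor (congrFun h.1 k)).le,
    (Int.abs_sub_lt_one_of_floor_eq_floor h.2).le⟩

lemma rpow_cube {q : ℝ} (hq : 0 ≤ q) : (q ^ 3) ^ (2 / 3 : ℝ) = q ^ 2 := by
  rw [← Real.rpow_natCast q 3, ← Real.rpow_mul hq]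
  norm_num

section

variable {C1 : ℝ} {c1 : ℕ} {R : ℝ} {A : Finset Ix} {x : Ix → E 2} {t : Ix → ℝ} {D : ℕ} {ctr : E 2}

/-- size of the classes -/
lemma class_le (hc1C : 392 * C1 ≤ (c1 : ℝ) ^ 3) (hA : Cf C1 R A x t) (hD : 1 ≤ D) (hctr : ∀ k, |ctr k| ≤ 3) (i : Ix) :
    (A.filter fun j => cellOf D ctr x t j = cellOf D ctr x t i).card ≤ (c1 * D) ^ 3 := by
  have h1 := count_resc hA hD hctr 1 le_rfl (nx D ctr x t i) (t i / (D : ℝ) ^ 2)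
  have h2 : (A.filter fun j => cellOf D ctr x t j = cellOf D ctr x t i) ⊆
      A.filter fun j => (∀ k, |nx D ctr x t j k - nx D ctr x t i k| ≤ 1) ∧ |t j / (D : ℝ) ^ 2 - t i / (D : ℝ) ^ 2| ≤ 1 := by
    intro j hj
    rw [Finset.mem_filter] at hj ⊢
    exact ⟨hj.1, cell_close hj.2⟩
  have h3 : ((A.filter fun j => cellOf D ctr x t j = cellOf D ctr x t i).card : ℝ) ≤ ((c1 * D) ^ 3 : ℕ) := by
    refine le_trans ?_ (h1.trans ?_)
    · exact Nat.cast_le.2 (Finset.card_le_card h2)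
    · push_cast
      have := hA.C_nonneg
      have hD3 : (0 : ℝ) ≤ (D : ℝ) ^ 3 := by positivity
      rw [mul_pow]
      nlinarith
  exact_mod_cast h3

/-- the representatives form an admissible configuration -/
lemma reps_pt (hc1C : 392 * C1 ≤ (c1 : ℝ) ^ 3) (hA : Cf C1 R A x t) (hD : 1 ≤ D)
    (hctr : ∀ k, |ctr k| ≤ 3) {F : Finset Ix} (hFA : F ⊆ A)
    (hinj : ∀ i ∈ F, ∀ j ∈ F, cellOf D ctr x t i = cellOf D ctr x t j → i = j) {a : ℕ}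
    (hm : ∀ i ∈ F, 8 ^ a ≤ (A.filter fun j => cellOf D ctr x t j = cellOf D ctr x t i).card) :
    Pt ((c1 / 2 ^ a) ^ 3 * (D : ℝ) ^ 3) (R / (D : ℝ) ^ 2) F (nx D ctr x t) (fun i => t i / (D : ℝ) ^ 2) := by
  have hDr : (1 : ℝ) ≤ D := by exact_mod_cast hD
  refine ⟨fun i hi => div_nonneg (hA.t0 i (hFA hi)) (by positivity), fun i hi => ?_, fun i hi j hj h1 h2 => ?_,
    fun r y s hr => ?_⟩
  · exact div_le_div_of_nonneg_right (hA.tR i (hFA hi)) (by positivity)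
  · refine hinj i hi j hj ?_
    unfold cellOf
    rw [Prod.mk.injEq]
    exact ⟨funext h1, h2⟩
  · have h1 := class_count A (F.filter fun i => (∀ k, |nx D ctr x t i k - y k| ≤ r) ∧ |t i / (D : ℝ) ^ 2 - s| ≤ r)
      (A.filter fun i => (∀ k, |nx D ctr x t i k - y k| ≤ r + 1) ∧ |t i / (D : ℝ) ^ 2 - s| ≤ r + 1)
      (cellOf D ctr x t) (8 ^ a)
      (fun i hi j hj => hinj i (Finset.mem_filter.1 hi).1 j (Finset.mem_filter.1 hj).1)
      (fun i hi => hm i (Finset.mem_filter.1 hi).1) (by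
        intro i hi j hj
        rw [Finset.mem_filter] at hi hj ⊢
        obtain ⟨hk, ht⟩ := cell_close hj.2
        refine ⟨hj.1, fun k => ?_, ?_⟩
        · have e : nx D ctr x t j k - y k = (nx D ctr x t j k - nx D ctr x t i k) + (nx D ctr x t i k - y k) := by ring
          rw [e]
          refine (abs_add_le _ _).trans ?_
          linarith [hk k, hi.2.1 k]
        · have e : t j / (D : ℝ) ^ 2 - s = (t j / (D : ℝ) ^ 2 - t i / (D : ℝ) ^ 2) + (t i / (D : ℝ) ^ 2 - s) := by ring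
          rw [e]
          refine (abs_add_le _ _).trans ?_
          linarith [hi.2.2])
    have h2 := count_resc hA hD hctr (r + 1) (by linarith) y s
    set n1 := (F.filter fun i => (∀ k, |nx D ctr x t i k - y k| ≤ r) ∧ |t i / (D : ℝ) ^ 2 - s| ≤ r).card with hn1
    have h3 : (8 : ℝ) ^ a * n1 ≤ 98 * C1 * D ^ 3 * (r + 1) ^ 2 := by
      refine le_trans ?_ h2
      have h1' : ((8 ^ a * n1 : ℕ) : ℝ) ≤ _ := Nat.cast_le.2 h1
      rw [Nat.cast_mul, Nat.cast_pow, Nat.cast_ofNat] at h1'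
      exact h1'
    have hC := hA.C_nonneg
    have h4 : 98 * C1 * (D : ℝ) ^ 3 * (r + 1) ^ 2 ≤ (c1 : ℝ) ^ 3 * D ^ 3 * r ^ 2 := by
      have h5 : (r + 1) ^ 2 ≤ 4 * r ^ 2 := by nlinarith
      have h6 : 0 ≤ 98 * C1 * (D : ℝ) ^ 3 := by positivity
      calc 98 * C1 * (D : ℝ) ^ 3 * (r + 1) ^ 2 ≤ 98 * C1 * (D : ℝ) ^ 3 * (4 * r ^ 2) := mul_le_mul_of_nonneg_left h5 h6
        _ = 392 * C1 * (D ^ 3 * r ^ 2) := by ring
        _ ≤ (c1 : ℝ) ^ 3 * (D ^ 3 * r ^ 2) := mul_le_mul_of_nonneg_right hc1C (by positivity)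
        _ = _ := by ring
    have e8 : ((2 : ℝ) ^ a) ^ 3 = 8 ^ a := by
      rw [← pow_mul, mul_comm, pow_mul]; norm_num
    have h7 : (0 : ℝ) < 8 ^ a := by positivity
    rw [div_pow, e8]
    have e9 : (c1 : ℝ) ^ 3 / 8 ^ a * (D : ℝ) ^ 3 * r ^ 2 = ((c1 : ℝ) ^ 3 * D ^ 3 * r ^ 2) / 8 ^ a := by ring
    rw [e9, le_div_iff₀ h7, mul_comm]
    exact h3.trans h4

end

end Vale.Agent.P076.H23
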