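import Vale.Agent.P076.H23.One

/-! # P076 / H23 : one cap, broad points -/

open MeasureTheory

namespace Vale.Agent.P076.H23

variable {C1 : ℝ} {c1 : ℕ} {R : ℝ} {A : Finset Ix} {x : Ix → E 2} {t : Ix → ℝ} {D : ℕ} {ctr : E 2}

lemma str_resc {w : ℝ} {G : E 2 → ℂ} (hD : 1 ≤ D) (hm : Measurable G) (hb : ∃ b : ℝ, ∀ η, ‖G η‖ ≤ b)
    (hs0 : ∀ η, G η ≠ 0 → |(D : ℝ) * (η 0 - ctr 0)| ≤ 1) (hs1 : ∀ η, G η ≠ 0 → |(D : ℝ) * (η 1 - ctr 1)| ≤ w) :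
    Str w (rescG D ctr G) := by
  have hD0 : (0 : ℝ) < D := by exact_mod_cast hD
  refine ⟨measurable_rescG _ _ hm, bdd_rescG _ hD0 _ hb, fun ζ hζ => ?_, fun ζ hζ => ?_⟩
  · have h := hs0 _ (rescG_ne hζ)
    simp only [PiLp.add_apply, PiLp.smul_apply, smul_eq_mul, add_sub_cancel_left] at h
    rwa [← mul_assoc, mul_inv_cancel₀ hD0.ne', one_mul] at h
  · have h := hs1 _ (rescG_ne hζ)
    simp only [PiLp.add_apply, PiLp.smul_apply, smul_eq_mul, add_sub_cancel_left] at h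
    rwa [← mul_assoc, mul_inv_cancel₀ hD0.ne', one_mul] at h

/-- the trivial bound for representatives -/
lemma triv_reps {Ct β : ℝ} (HT : TRV Ct) (hc1C : 392 * C1 ≤ (c1 : ℝ) ^ 3) (hA : Cf C1 R A x t)
    (hD : 1 ≤ D) (hDR : (D : ℝ) ^ 2 ≤ R) (hctr : ∀ k, |ctr k| ≤ 3) {G : E 2 → ℂ} (hm1 : Measurable G)
    (hb1 : ∃ b : ℝ, ∀ η, ‖G η‖ ≤ b) (hs0 : ∀ η, G η ≠ 0 → |(D : ℝ) * (η 0 - ctr 0)| ≤ 1)
    (hs1 : ∀ η, G η ≠ 0 → |(D : ℝ) * (η 1 - ctr 1)| ≤ 1) (hβ : 0 ≤ β) (hbig : ∀ i ∈ A, β ≤ ‖evo G (x i) (t i) 0‖)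
    {F : Finset Ix} (hFA : F ⊆ A) (hinj : ∀ i ∈ F, ∀ j ∈ F, cellOf D ctr x t i = cellOf D ctr x t j → i = j) {a : ℕ}
    (hm : ∀ i ∈ F, 8 ^ a ≤ (A.filter fun j => cellOf D ctr x t j = cellOf D ctr x t i).card) :
    β ^ 2 * F.card ≤ Ct * (R / (D : ℝ) ^ 2) * (((D : ℝ) ^ 2)⁻¹ * ∫ η, ‖G η‖ ^ 2) := by
  have hD0 : (0 : ℝ) < D := by exact_mod_cast hD
  have hR' : 1 ≤ R / (D : ℝ) ^ 2 := by rw [le_div_iff₀ (by positivity)]; linarith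
  have hS := str_resc (w := 1) hD hm1 hb1 hs0 hs1
  have hP := reps_pt hc1C hA hD hctr hFA hinj hm
  have h := HT (R / (D : ℝ) ^ 2) (rescG D ctr G) F (nx D ctr x t) (fun i => t i / (D : ℝ) ^ 2) hR' hS.meas hS.bdd
    (fun η hη i => by
      fin_cases i
      · exact hS.s0 η hη
      · exact hS.s1 η hη) hP.t0 hP.tR hP.cell
  rw [int_rescG D hD0] at h
  refine le_trans ?_ h
  rw [mul_comm, ← nsmul_eq_mul, ← Finset.sum_const]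
  refine Finset.sum_le_sum fun i hi => ?_
  unfold nx
  rw [norm_evo_resc D hD0 ctr G]
  exact pow_le_pow_left₀ hβ (hbig i (hFA hi)) 2

theorem one_triv {Ct β : ℝ} (HT : TRV Ct) (hc1C : 392 * C1 ≤ (c1 : ℝ) ^ 3) (hA : Cf C1 R A x t)
    (hD : 1 ≤ D) (hDR : (D : ℝ) ^ 2 ≤ R) (hctr : ∀ k, |ctr k| ≤ 3) {G : E 2 → ℂ} (hm1 : Measurable G)
    (hb1 : ∃ b : ℝ, ∀ η, ‖G η‖ ≤ b) (hs0 : ∀ η, G η ≠ 0 → |(D : ℝ) * (η 0 - ctr 0)| ≤ 1)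
    (hs1 : ∀ η, G η ≠ 0 → |(D : ℝ) * (η 1 - ctr 1)| ≤ 1) (hβ : 0 ≤ β) (hbig : ∀ i ∈ A, β ≤ ‖evo G (x i) (t i) 0‖) :
    β ^ 2 * A.card ≤ Ct * c1 ^ 3 * R / D * ∫ η, ‖G η‖ ^ 2 := by
  classical
  have hD0 : (0 : ℝ) < D := by exact_mod_cast hD
  -- one representative of every class
  have hch : ∀ q, ∃ i : Ix, q ∈ A.image (cellOf D ctr x t) → i ∈ A ∧ cellOf D ctr x t i = q := by
    intro q
    by_cases hq : q ∈ A.image (cellOf D ctr x t)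
    · obtain ⟨i, hi, h⟩ := Finset.mem_image.1 hq
      exact ⟨i, fun _ => ⟨hi, h⟩⟩
    · exact ⟨0, fun h => absurd h hq⟩
  choose rep hrep using hch
  set F : Finset Ix := (A.image (cellOf D ctr x t)).image rep with hF
  have hFA : F ⊆ A := by
    intro i hi
    obtain ⟨q, hq, rfl⟩ := Finset.mem_image.1 hi
    exact (hrep q hq).1
  have hinj : ∀ i ∈ F, ∀ j ∈ F, cellOf D ctr x t i = cellOf D ctr x t j → i = j := by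
    intro i hi j hj hij
    obtain ⟨q, hq, rfl⟩ := Finset.mem_image.1 hi
    obtain ⟨q', hq', rfl⟩ := Finset.mem_image.1 hj
    rw [(hrep q hq).2, (hrep q' hq').2] at hij
    rw [hij]
  have h := triv_reps HT hc1C hA hD hDR hctr hm1 hb1 hs0 hs1 hβ hbig hFA hinj (a := 0) (fun i hi => by
    rw [pow_zero, Nat.one_le_iff_ne_zero]
    have hmem : i ∈ A.filter fun j => cellOf D ctr x t j = cellOf D ctr x t i := Finset.mem_filter.2 ⟨hFA hi, rfl⟩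
    exact (Finset.card_pos.2 ⟨i, hmem⟩).ne')
  have hcard : (A.card : ℝ) ≤ (c1 * D) ^ 3 * F.card := by
    have h1 : A.card = ∑ q ∈ A.image (cellOf D ctr x t), (A.filter fun j => cellOf D ctr x t j = q).card :=
      Finset.card_eq_sum_card_image _ A
    have h2 : F.card = (A.image (cellOf D ctr x t)).card := by
      refine Finset.card_image_of_injOn fun q hq q' hq' h => ?_
      rw [← (hrep q hq).2, ← (hrep q' hq').2, h]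
    have h3 : A.card ≤ (c1 * D) ^ 3 * F.card := by
      rw [h1, h2, mul_comm, ← smul_eq_mul, ← Finset.sum_const]
      refine Finset.sum_le_sum fun q hq => ?_
      have := class_le hc1C hA hD hctr (rep q)
      rwa [(hrep q hq).2] at this
    exact_mod_cast h3
  calc β ^ 2 * (A.card : ℝ) ≤ β ^ 2 * ((c1 * D) ^ 3 * F.card) := mul_le_mul_of_nonneg_left hcard (by positivity)
    _ = (c1 * D) ^ 3 * (β ^ 2 * F.card) := by ring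
    _ ≤ (c1 * D) ^ 3 * (Ct * (R / (D : ℝ) ^ 2) * (((D : ℝ) ^ 2)⁻¹ * ∫ η, ‖G η‖ ^ 2)) :=
        mul_le_mul_of_nonneg_left h (by positivity)
    _ = _ := by
        field_simp

lemma sum_pow_le (X : ℝ) (hX : 0 ≤ X) (N : ℕ) :
    ∑ a ∈ Finset.range N, (if (8 : ℝ) ^ a ≤ X then (8 : ℝ) ^ a else 0) ≤ 8 / 7 * X := by
  induction N with
  | zero => simp only [Finset.range_zero, Finset.sum_empty]; positivity
  | succ N ih =>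
    by_cases h : (8 : ℝ) ^ N ≤ X
    · have h1 : ∑ a ∈ Finset.range (N + 1), (if (8 : ℝ) ^ a ≤ X then (8 : ℝ) ^ a else 0) ≤
          ∑ a ∈ Finset.range (N + 1), (8 : ℝ) ^ a := by
        refine Finset.sum_le_sum fun a _ => ?_
        split_ifs
        · exact le_rfl
        · positivity
      rw [geom_sum_eq (by norm_num)] at h1
      refine h1.trans ?_
      rw [pow_succ]
      norm_num
      linarith
    · rw [Finset.sum_range_succ, if_neg h, add_zero]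
      exact ih

/-- class with few large cells: broad estimate -/
lemma key_main {c δ ν Cb ρ β a' M : ℝ} (hδ : 0 < δ) (hCb : 0 ≤ Cb) (H : BSat c δ ν Cb) (hc1 : 1 ≤ c1)
    (hc1C : 392 * C1 ≤ (c1 : ℝ) ^ 3) (hA : Cf C1 R A x t) (hD : 1 ≤ D) (hDR : (D : ℝ) ^ 2 ≤ R)
    (hctr : ∀ k, |ctr k| ≤ 3) {G₁ G₂ : E 2 → ℂ} (hS1 : Str ((R / (D : ℝ) ^ 2) ^ (c - 1 / 2)) (rescG D ctr G₁))
    (hS2 : Str ((R / (D : ℝ) ^ 2) ^ (c - 1 / 2)) (rescG D ctr G₂))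
    (ha1 : ∀ η, rescG D ctr G₁ η ≠ 0 → η 0 ≤ a') (ha2 : ∀ η, rescG D ctr G₂ η ≠ 0 → a' + ν ≤ η 0)
    (hβ : 0 ≤ β) (hbig : ∀ i ∈ A, β ≤ ‖evo G₁ (x i) (t i) 0‖ ∧ β ≤ ‖evo G₂ (x i) (t i) 0‖)
    (hρ : (A.card : ℝ) ≤ ρ * R ^ 2) (hρ0 : 0 ≤ ρ) (hM : M = (∫ η, ‖G₁ η‖ ^ 2) + ∫ η, ‖G₂ η‖ ^ 2)
    {F : Finset Ix} (hFA : F ⊆ A) (hinj : ∀ i ∈ F, ∀ j ∈ F, cellOf D ctr x t i = cellOf D ctr x t j → i = j) {a : ℕ}
    (hm : ∀ i ∈ F, 8 ^ a ≤ (A.filter fun j => cellOf D ctr x t j = cellOf D ctr x t i).card) (hne : F.Nonempty)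
    (hbg : ((c1 : ℝ) / 2 ^ a) ^ 3 * (D : ℝ) ^ 3 ≤ (R / (D : ℝ) ^ 2) ^ (12 / 25 : ℝ)) :
    (8 : ℝ) ^ (a + 1) * (β ^ 2 * F.card) ≤
      8 * Cb * c1 ^ 2 * 2 ^ a * (((D * R) ^ (2 / 3 : ℝ)) * ((D : ℝ) ^ 2)⁻¹ * (D * ρ) ^ δ) * M := by
  have hDr : (1 : ℝ) ≤ D := by exact_mod_cast hD
  have hD0 : (0 : ℝ) < D := by linarith
  have hR0 : 0 < R := lt_of_lt_of_le (by positivity) hDR
  have hR' : 1 ≤ R / (D : ℝ) ^ 2 := by rw [le_div_iff₀ (by positivity)]; linarith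
  have hc1r : (1 : ℝ) ≤ c1 := by exact_mod_cast hc1
  obtain ⟨i, hi⟩ := hne
  have hM0 : 0 ≤ M := by
    rw [hM]
    exact add_nonneg (integral_nonneg fun _ => by positivity) (integral_nonneg fun _ => by positivity)
  have h8 : (8 : ℝ) ^ a = ((2 : ℝ) ^ a) ^ 3 := by rw [← pow_mul, mul_comm, pow_mul]; norm_num
  have hg : 1 ≤ ((c1 : ℝ) / 2 ^ a) ^ 3 * (D : ℝ) ^ 3 := by
    have h1 : (8 ^ a : ℕ) ≤ (c1 * D) ^ 3 := (hm i hi).trans (class_le hc1C hA hD hctr i)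
    have h2 : (8 : ℝ) ^ a ≤ ((c1 : ℝ) * D) ^ 3 := by exact_mod_cast h1
    rw [div_pow, ← h8, div_mul_eq_mul_div, le_div_iff₀ (by positivity), one_mul, ← mul_pow]
    exact h2
  have hP := reps_pt hc1C hA hD hctr hFA hinj hm
  have h := H (R / (D : ℝ) ^ 2) (((c1 : ℝ) / 2 ^ a) ^ 3 * (D : ℝ) ^ 3) β a' (rescG D ctr G₁) (rescG D ctr G₂) F
    (nx D ctr x t) (fun i => t i / (D : ℝ) ^ 2) hR' hg hbg hβ hS1 hS2 ha1 ha2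
    hP (fun i hi => by
      have h := hbig i (hFA hi)
      unfold nx
      rw [norm_evo_resc D hD0 ctr G₁, norm_evo_resc D hD0 ctr G₂]
      exact h)
  rw [int_rescG D hD0, int_rescG D hD0, ← mul_add, ← hM] at h
  have e1 : (((c1 : ℝ) / 2 ^ a) ^ 3 * (D : ℝ) ^ 3 * (R / (D : ℝ) ^ 2)) ^ (2 / 3 : ℝ) =
      (c1 / 2 ^ a) ^ 2 * (D * R) ^ (2 / 3 : ℝ) := by
    have : ((c1 : ℝ) / 2 ^ a) ^ 3 * (D : ℝ) ^ 3 * (R / (D : ℝ) ^ 2) = ((c1 : ℝ) / 2 ^ a) ^ 3 * (D * R) := by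
      field_simp
    rw [this, Real.mul_rpow (by positivity) (by positivity), rpow_cube (by positivity)]
  have h8F : (8 : ℝ) ^ a * F.card ≤ A.card := by
    have := class_count A F A (cellOf D ctr x t) (8 ^ a) hinj hm fun i _ => Finset.filter_subset _ _
    exact_mod_cast this
  have e2 : (min 1 ((F.card : ℝ) / (((c1 : ℝ) / 2 ^ a) ^ 3 * (D : ℝ) ^ 3 * (R / (D : ℝ) ^ 2) ^ 2))) ^ δ ≤
      (D * ρ) ^ δ := by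
    refine Real.rpow_le_rpow (le_min zero_le_one (by positivity)) ((min_le_right _ _).trans ?_) hδ.le
    rw [div_pow, ← h8, div_pow, div_le_iff₀ (by positivity)]
    have e3 : (D : ℝ) * ρ * ((c1 : ℝ) ^ 3 / 8 ^ a * (D : ℝ) ^ 3 * (R ^ 2 / ((D : ℝ) ^ 2) ^ 2)) =
        (c1 : ℝ) ^ 3 * (ρ * R ^ 2) / 8 ^ a := by
      field_simp
    rw [e3, le_div_iff₀ (by positivity)]
    have h3 : (1 : ℝ) ≤ (c1 : ℝ) ^ 3 := one_le_pow₀ hc1r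
    have h4 : 0 ≤ ρ * R ^ 2 := by positivity
    nlinarith
  rw [e1] at h
  have h5 : β ^ 2 * (F.card : ℝ) ≤ Cb * ((c1 / 2 ^ a) ^ 2 * (D * R) ^ (2 / 3 : ℝ)) * (D * ρ) ^ δ *
      (((D : ℝ) ^ 2)⁻¹ * M) := by
    refine h.trans ?_
    gcongr
  have h6 : (8 : ℝ) ^ (a + 1) * (β ^ 2 * (F.card : ℝ)) ≤ 8 ^ (a + 1) *
      (Cb * ((c1 / 2 ^ a) ^ 2 * (D * R) ^ (2 / 3 : ℝ)) * (D * ρ) ^ δ * (((D : ℝ) ^ 2)⁻¹ * M)) :=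
    mul_le_mul_of_nonneg_left h5 (by positivity)
  refine h6.trans (le_of_eq ?_)
  rw [pow_succ, h8]
  field_simp

/-- class with many points in few cells: trivial estimate -/
lemma key_triv {c Ct β M : ℝ} (hCt : 0 ≤ Ct) (HT : TRV Ct) (hc2 : c ≤ 1 / 2)
    (hc1C : 392 * C1 ≤ (c1 : ℝ) ^ 3) (hA : Cf C1 R A x t) (hD : 1 ≤ D) (hDR : (D : ℝ) ^ 2 ≤ R)
    (hctr : ∀ k, |ctr k| ≤ 3) {G₁ : E 2 → ℂ} (hm1 : Measurable G₁) (hb1 : ∃ b : ℝ, ∀ η, ‖G₁ η‖ ≤ b)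
    (hs10 : ∀ η, G₁ η ≠ 0 → |(D : ℝ) * (η 0 - ctr 0)| ≤ 1)
    (hs11 : ∀ η, G₁ η ≠ 0 → |(D : ℝ) * (η 1 - ctr 1)| ≤ (R / (D : ℝ) ^ 2) ^ (c - 1 / 2))
    (hβ : 0 ≤ β) (hbig : ∀ i ∈ A, β ≤ ‖evo G₁ (x i) (t i) 0‖) (hM : ∫ η, ‖G₁ η‖ ^ 2 ≤ M)
    {F : Finset Ix} (hFA : F ⊆ A) (hinj : ∀ i ∈ F, ∀ j ∈ F, cellOf D ctr x t i = cellOf D ctr x t j → i = j) {a : ℕ}
    (hm : ∀ i ∈ F, 8 ^ a ≤ (A.filter fun j => cellOf D ctr x t j = cellOf D ctr x t i).card)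
    (hbg : (R / (D : ℝ) ^ 2) ^ (12 / 25 : ℝ) < ((c1 : ℝ) / 2 ^ a) ^ 3 * (D : ℝ) ^ 3) :
    (8 : ℝ) ^ (a + 1) * (β ^ 2 * F.card) ≤
      (if (8 : ℝ) ^ a ≤ (c1 * D) ^ 3 * (R / (D : ℝ) ^ 2) ^ (-(12 / 25) : ℝ) then (8 : ℝ) ^ a else 0) *
        (8 * (Ct * (R / (D : ℝ) ^ 2) * ((D : ℝ) ^ 2)⁻¹)) * M := by
  have hDr : (1 : ℝ) ≤ D := by exact_mod_cast hD
  have hD0 : (0 : ℝ) < D := by linarith
  have hR0 : 0 < R := lt_of_lt_of_le (by positivity) hDR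
  have hR' : 1 ≤ R / (D : ℝ) ^ 2 := by rw [le_div_iff₀ (by positivity)]; linarith
  have h8 : (8 : ℝ) ^ a = ((2 : ℝ) ^ a) ^ 3 := by rw [← pow_mul, mul_comm, pow_mul]; norm_num
  have h1 := triv_reps HT hc1C hA hD hDR hctr hm1 hb1 hs10 (fun η hη => (hs11 η hη).trans
    (Real.rpow_le_one_of_one_le_of_nonpos hR' (by linarith))) hβ hbig hFA hinj hm
  have hle : (8 : ℝ) ^ a ≤ (c1 * D) ^ 3 * (R / (D : ℝ) ^ 2) ^ (-(12 / 25) : ℝ) := by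
    rw [Real.rpow_neg (by positivity), ← div_eq_mul_inv, le_div_iff₀ (by positivity)]
    rw [div_pow, ← h8, div_mul_eq_mul_div, lt_div_iff₀ (by positivity), ← mul_pow] at hbg
    rw [mul_comm]
    exact hbg.le
  rw [if_pos hle]
  have h3 : β ^ 2 * (F.card : ℝ) ≤ Ct * (R / (D : ℝ) ^ 2) * (((D : ℝ) ^ 2)⁻¹ * M) := by
    refine h1.trans ?_
    gcongr
  have h4 : (8 : ℝ) ^ (a + 1) * (β ^ 2 * (F.card : ℝ)) ≤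
      8 ^ (a + 1) * (Ct * (R / (D : ℝ) ^ 2) * (((D : ℝ) ^ 2)⁻¹ * M)) :=
    mul_le_mul_of_nonneg_left h3 (by positivity)
  refine h4.trans (le_of_eq ?_)
  rw [pow_succ]; ring

/-- summation over the classes -/
lemma sum_classes {Cb Ct β ρ M δ : ℝ} (hCb : 0 ≤ Cb) (hCt : 0 ≤ Ct) (hM0 : 0 ≤ M) (hR0 : 0 < R) (hρ0 : 0 ≤ ρ)
    (hD : 1 ≤ D) (hc1 : 1 ≤ c1) {F : ℕ → Finset Ix}
    (hcard : A.card ≤ ∑ a ∈ Finset.range (Nat.log 2 (c1 * D) + 1), 8 ^ (a + 1) * (F a).card)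
    (key : ∀ a, (8 : ℝ) ^ (a + 1) * (β ^ 2 * (F a).card) ≤
      8 * Cb * c1 ^ 2 * 2 ^ a * (((D * R) ^ (2 / 3 : ℝ)) * ((D : ℝ) ^ 2)⁻¹ * (D * ρ) ^ δ) * M +
      (if (8 : ℝ) ^ a ≤ (c1 * D) ^ 3 * (R / (D : ℝ) ^ 2) ^ (-(12 / 25) : ℝ) then (8 : ℝ) ^ a else 0) *
        (8 * (Ct * (R / (D : ℝ) ^ 2) * ((D : ℝ) ^ 2)⁻¹)) * M) :
    β ^ 2 * A.card ≤ (16 * Cb * c1 ^ 3 * ((D : ℝ) * ((D * R) ^ (2 / 3 : ℝ)) * ((D : ℝ) ^ 2)⁻¹ * (D * ρ) ^ δ) +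
      10 * Ct * c1 ^ 3 * (R / D * (R / (D : ℝ) ^ 2) ^ (-(12 / 25) : ℝ))) * M := by
  have hDr : (1 : ℝ) ≤ D := by exact_mod_cast hD
  have hD0 : (0 : ℝ) < D := by linarith
  have hcD : c1 * D ≠ 0 := by positivity
  set N := Nat.log 2 (c1 * D) + 1 with hN
  set Y : ℝ := ((D * R) ^ (2 / 3 : ℝ)) * ((D : ℝ) ^ 2)⁻¹ * (D * ρ) ^ δ with hY
  have hY0 : 0 ≤ Y := by positivity
  set X : ℝ := (c1 * D) ^ 3 * (R / (D : ℝ) ^ 2) ^ (-(12 / 25) : ℝ) with hX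
  have hX0 : 0 ≤ X := by positivity
  set Z : ℝ := 8 * (Ct * (R / (D : ℝ) ^ 2) * ((D : ℝ) ^ 2)⁻¹) with hZ
  have hZ0 : 0 ≤ Z := by positivity
  have hsum : β ^ 2 * (A.card : ℝ) ≤ ∑ a ∈ Finset.range N, (8 * Cb * c1 ^ 2 * 2 ^ a * Y * M +
      (if (8 : ℝ) ^ a ≤ X then (8 : ℝ) ^ a else 0) * Z * M) := by
    have h1 : (A.card : ℝ) ≤ ∑ a ∈ Finset.range N, (8 : ℝ) ^ (a + 1) * (F a).card := by exact_mod_cast hcard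
    calc β ^ 2 * (A.card : ℝ) ≤ β ^ 2 * ∑ a ∈ Finset.range N, (8 : ℝ) ^ (a + 1) * (F a).card :=
          mul_le_mul_of_nonneg_left h1 (by positivity)
      _ = ∑ a ∈ Finset.range N, (8 : ℝ) ^ (a + 1) * (β ^ 2 * (F a).card) := by
          rw [Finset.mul_sum]
          exact Finset.sum_congr rfl fun a _ => by ring
      _ ≤ _ := Finset.sum_le_sum fun a _ => key a
  have hgeo : ∑ a ∈ Finset.range N, 8 * Cb * c1 ^ 2 * 2 ^ a * Y * M = 8 * Cb * c1 ^ 2 * Y * M * (2 ^ N - 1) := by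
    have : ∀ a ∈ Finset.range N, 8 * Cb * c1 ^ 2 * 2 ^ a * Y * M = 8 * Cb * c1 ^ 2 * Y * M * (2 : ℝ) ^ a :=
      fun a _ => by ring
    rw [Finset.sum_congr rfl this, ← Finset.mul_sum, geom_sum_eq (by norm_num)]
    norm_num
  have hgeo2 : ∑ a ∈ Finset.range N, (if (8 : ℝ) ^ a ≤ X then (8 : ℝ) ^ a else 0) * Z * M ≤ 8 / 7 * X * (Z * M) := by
    have : ∀ a ∈ Finset.range N, (if (8 : ℝ) ^ a ≤ X then (8 : ℝ) ^ a else 0) * Z * M =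
        (if (8 : ℝ) ^ a ≤ X then (8 : ℝ) ^ a else 0) * (Z * M) := fun a _ => by ring
    rw [Finset.sum_congr rfl this, ← Finset.sum_mul]
    exact mul_le_mul_of_nonneg_right (sum_pow_le X hX0 N) (by positivity)
  rw [Finset.sum_add_distrib, hgeo] at hsum
  have h2N : (2 : ℝ) ^ N ≤ 2 * (c1 * D) := by
    rw [hN, pow_succ, mul_comm]
    have : 2 ^ Nat.log 2 (c1 * D) ≤ c1 * D := Nat.pow_log_le_self 2 hcD
    have h2 : (2 : ℝ) ^ Nat.log 2 (c1 * D) ≤ c1 * D := by exact_mod_cast this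
    linarith
  have hT1 : 8 * Cb * c1 ^ 2 * Y * M * (2 ^ N - 1) ≤ 8 * Cb * c1 ^ 2 * Y * M * (2 * (c1 * D)) :=
    mul_le_mul_of_nonneg_left (by linarith) (by positivity)
  have hT2 : 8 / 7 * X * (Z * M) ≤ 10 * Ct * c1 ^ 3 * (R / D * (R / (D : ℝ) ^ 2) ^ (-(12 / 25) : ℝ)) * M := by
    have e : 8 / 7 * X * (Z * M) = 64 / 7 * (Ct * c1 ^ 3 * (R / D * (R / (D : ℝ) ^ 2) ^ (-(12 / 25) : ℝ)) * M) := by
      rw [hX, hZ]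
      field_simp
      norm_num
      ring
    rw [e]
    have : 0 ≤ Ct * c1 ^ 3 * (R / D * (R / (D : ℝ) ^ 2) ^ (-(12 / 25) : ℝ)) * M := by positivity
    linarith
  have hfin : 8 * Cb * c1 ^ 2 * Y * M * (2 * (c1 * D)) =
      16 * Cb * c1 ^ 3 * ((D : ℝ) * ((D * R) ^ (2 / 3 : ℝ)) * ((D : ℝ) ^ 2)⁻¹ * (D * ρ) ^ δ) * M := by
    rw [hY]; ring
  rw [add_mul, ← hfin]
  linarith

theorem one_broad {c δ ν Cb Ct ρ β a' : ℝ} (hδ : 0 < δ) (hCb : 0 ≤ Cb) (H : BSat c δ ν Cb) (hCt : 0 ≤ Ct) (HT : TRV Ct)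
    (hc2 : c ≤ 1 / 2) (hc1 : 1 ≤ c1)
    (hc1C : 392 * C1 ≤ (c1 : ℝ) ^ 3) (hA : Cf C1 R A x t) (hD : 1 ≤ D) (hDR : (D : ℝ) ^ 2 ≤ R)
    (hctr : ∀ k, |ctr k| ≤ 3) {G₁ G₂ : E 2 → ℂ} (hm1 : Measurable G₁) (hb1 : ∃ b : ℝ, ∀ η, ‖G₁ η‖ ≤ b)
    (hm2 : Measurable G₂) (hb2 : ∃ b : ℝ, ∀ η, ‖G₂ η‖ ≤ b)
    (hs10 : ∀ η, G₁ η ≠ 0 → |(D : ℝ) * (η 0 - ctr 0)| ≤ 1)
    (hs11 : ∀ η, G₁ η ≠ 0 → |(D : ℝ) * (η 1 - ctr 1)| ≤ (R / (D : ℝ) ^ 2) ^ (c - 1 / 2))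
    (hs20 : ∀ η, G₂ η ≠ 0 → |(D : ℝ) * (η 0 - ctr 0)| ≤ 1)
    (hs21 : ∀ η, G₂ η ≠ 0 → |(D : ℝ) * (η 1 - ctr 1)| ≤ (R / (D : ℝ) ^ 2) ^ (c - 1 / 2))
    (ha1 : ∀ η, G₁ η ≠ 0 → (D : ℝ) * (η 0 - ctr 0) ≤ a') (ha2 : ∀ η, G₂ η ≠ 0 → a' + ν ≤ (D : ℝ) * (η 0 - ctr 0))
    (hβ : 0 ≤ β) (hbig : ∀ i ∈ A, β ≤ ‖evo G₁ (x i) (t i) 0‖ ∧ β ≤ ‖evo G₂ (x i) (t i) 0‖)
    (hρ : (A.card : ℝ) ≤ ρ * R ^ 2) :
    β ^ 2 * A.card ≤ (16 * Cb * c1 ^ 3 * ((D : ℝ) * ((D * R) ^ (2 / 3 : ℝ)) * ((D : ℝ) ^ 2)⁻¹ * (D * ρ) ^ δ) +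
      10 * Ct * c1 ^ 3 * (R / D * (R / (D : ℝ) ^ 2) ^ (-(12 / 25) : ℝ))) * ((∫ η, ‖G₁ η‖ ^ 2) + ∫ η, ‖G₂ η‖ ^ 2) := by
  classical
  have hDr : (1 : ℝ) ≤ D := by exact_mod_cast hD
  have hD0 : (0 : ℝ) < D := by linarith
  have hR0 : 0 < R := lt_of_lt_of_le (by positivity) hDR
  have hρ0 : 0 ≤ ρ := by
    by_contra hneg
    push Not at hneg
    have : (0 : ℝ) ≤ A.card := Nat.cast_nonneg _
    nlinarith [mul_neg_of_neg_of_pos hneg (by positivity : 0 < R ^ 2)]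
  have hI1 : 0 ≤ ∫ η, ‖G₁ η‖ ^ 2 := integral_nonneg fun _ => by positivity
  have hI2 : 0 ≤ ∫ η, ‖G₂ η‖ ^ 2 := integral_nonneg fun _ => by positivity
  obtain ⟨F, hFA, hinj, hm, hcard⟩ := reps A (cellOf D ctr x t) (Nat.log 2 (c1 * D) + 1) (by
    intro i _
    refine lt_of_le_of_lt (class_le hc1C hA hD hctr i) ?_
    have h1 : c1 * D < 2 ^ (Nat.log 2 (c1 * D) + 1) := Nat.lt_pow_succ_log_self (by norm_num) _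
    calc (c1 * D) ^ 3 < (2 ^ (Nat.log 2 (c1 * D) + 1)) ^ 3 := Nat.pow_lt_pow_left h1 (by norm_num)
      _ = 8 ^ (Nat.log 2 (c1 * D) + 1) := by rw [← pow_mul, mul_comm, pow_mul]; norm_num)
  refine sum_classes hCb hCt (add_nonneg hI1 hI2) hR0 hρ0 hD hc1 hcard fun a => ?_
  have hp1 : 0 ≤ 8 * Cb * c1 ^ 2 * 2 ^ a * (((D * R) ^ (2 / 3 : ℝ)) * ((D : ℝ) ^ 2)⁻¹ * (D * ρ) ^ δ) *
      ((∫ η, ‖G₁ η‖ ^ 2) + ∫ η, ‖G₂ η‖ ^ 2) := mul_nonneg (by positivity) (add_nonneg hI1 hI2)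
  have hp2 : 0 ≤ (if (8 : ℝ) ^ a ≤ (c1 * D) ^ 3 * (R / (D : ℝ) ^ 2) ^ (-(12 / 25) : ℝ) then (8 : ℝ) ^ a else 0) *
        (8 * (Ct * (R / (D : ℝ) ^ 2) * ((D : ℝ) ^ 2)⁻¹)) * ((∫ η, ‖G₁ η‖ ^ 2) + ∫ η, ‖G₂ η‖ ^ 2) := by
    refine mul_nonneg (mul_nonneg ?_ (by positivity)) (add_nonneg hI1 hI2)
    split_ifs <;> positivity
  rcases (F a).eq_empty_or_nonempty with he | hne
  · rw [he]
    simp only [Finset.card_empty, Nat.cast_zero, mul_zero]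
    linarith
  by_cases hbg : ((c1 : ℝ) / 2 ^ a) ^ 3 * (D : ℝ) ^ 3 ≤ (R / (D : ℝ) ^ 2) ^ (12 / 25 : ℝ)
  · have h := key_main (a' := a') hδ hCb H hc1 hc1C hA hD hDR hctr (str_resc hD hm1 hb1 hs10 hs11)
      (str_resc hD hm2 hb2 hs20 hs21)
      (fun ζ hζ => by
        have h := ha1 _ (rescG_ne hζ)
        simp only [PiLp.add_apply, PiLp.smul_apply, smul_eq_mul, add_sub_cancel_left] at h
        rwa [← mul_assoc, mul_inv_cancel₀ hD0.ne', one_mul] at h)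
      (fun ζ hζ => by
        have h := ha2 _ (rescG_ne hζ)
        simp only [PiLp.add_apply, PiLp.smul_apply, smul_eq_mul, add_sub_cancel_left] at h
        rwa [← mul_assoc, mul_inv_cancel₀ hD0.ne', one_mul] at h)
      hβ hbig hρ hρ0 rfl (hFA a) (hinj a) (hm a) hne hbg
    linarith
  · push Not at hbg
    have h := key_triv (M := (∫ η, ‖G₁ η‖ ^ 2) + ∫ η, ‖G₂ η‖ ^ 2) hCt HT hc2 hc1C hA hD hDR hctr hm1 hb1 hs10 hs11 hβ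
      (fun i hi => (hbig i hi).1) (by linarith) (hFA a) (hinj a) (hm a) hbg
    linarith

end Vale.Agent.P076.H23
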