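import Vale.Agent.P076.H23.Defs

/-! # P076 / H23 : rescaling and rotation of profiles -/

open MeasureTheory Complex

namespace Vale.Agent.P076.H23

noncomputable def rescG (D : ℝ) (c : E 2) (G : E 2 → ℂ) (ζ : E 2) : ℂ := ((D ^ 2)⁻¹ : ℝ) * G (c + D⁻¹ • ζ)

lemma integral_affine {F : Type*} [NormedAddCommGroup F] [NormedSpace ℝ F] (f : E 2 → F) (c : E 2) {D : ℝ} (hD : 0 < D) :
    ∫ ζ, f (c + D⁻¹ • ζ) = (D ^ 2) • ∫ η, f η := by
  rw [Measure.integral_comp_smul (μ := (volume : Measure (E 2))) (fun η => f (c + η)) D⁻¹, finrank_euclideanSpace,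
    Fintype.card_fin, integral_add_left_eq_self f c]
  congr 1
  rw [inv_pow, inv_inv, abs_of_pos (by positivity)]

lemma norm_evo_resc (D : ℝ) (hD : 0 < D) (c : E 2) (G : E 2 → ℂ) (x : E 2) (t : ℝ) :
    ‖evo (rescG D c G) (D⁻¹ • (x - (2 * t) • c)) (t / D ^ 2) 0‖ = ‖evo G x t 0‖ := by
  have key : evo G x t 0 = cexp (((2 * Real.pi * (inner ℝ x c - t * ‖c‖ ^ 2) : ℝ) : ℂ) * I) *
      evo (rescG D c G) (D⁻¹ • (x - (2 * t) • c)) (t / D ^ 2) 0 := by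
    unfold evo rescG
    have h1 := integral_affine (fun η : E 2 => cexp (2 * Real.pi * I * ((inner ℝ x η - t * ‖η‖ ^ 2 : ℝ) : ℂ)
      - (0 * ‖η‖ ^ 2 : ℝ)) * G η) c hD
    have h2 : ∫ η : E 2, cexp (2 * Real.pi * I * ((inner ℝ x η - t * ‖η‖ ^ 2 : ℝ) : ℂ) - (0 * ‖η‖ ^ 2 : ℝ)) * G η =
        ((D ^ 2)⁻¹ : ℝ) • ∫ ζ : E 2, cexp (2 * Real.pi * I * ((inner ℝ x (c + D⁻¹ • ζ) - t * ‖c + D⁻¹ • ζ‖ ^ 2 : ℝ) : ℂ)
          - (0 * ‖c + D⁻¹ • ζ‖ ^ 2 : ℝ)) * G (c + D⁻¹ • ζ) := by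
      rw [h1, smul_smul, inv_mul_cancel₀ (by positivity), one_smul]
    rw [h2, ← integral_smul, ← integral_const_mul]
    refine integral_congr_ae (Filter.Eventually.of_forall fun ζ => ?_)
    simp only
    have e1 : inner ℝ x (c + D⁻¹ • ζ) - t * ‖c + D⁻¹ • ζ‖ ^ 2 = (inner ℝ x c - t * ‖c‖ ^ 2) +
        (inner ℝ (D⁻¹ • (x - (2 * t) • c)) ζ - t / D ^ 2 * ‖ζ‖ ^ 2) := by
      rw [inner_add_right, real_inner_smul_right, @norm_add_sq_real, real_inner_smul_right, norm_smul,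
        real_inner_smul_left, inner_sub_left, real_inner_smul_left, mul_pow, Real.norm_eq_abs, sq_abs]
      field_simp
      ring
    rw [e1, Complex.real_smul]
    have e2 : (2 * Real.pi * I * ((inner ℝ x c - t * ‖c‖ ^ 2 + (inner ℝ (D⁻¹ • (x - (2 * t) • c)) ζ - t / D ^ 2 * ‖ζ‖ ^ 2) : ℝ) : ℂ)
        - ((0 * ‖c + D⁻¹ • ζ‖ ^ 2 : ℝ) : ℂ)) = ((2 * Real.pi * (inner ℝ x c - t * ‖c‖ ^ 2) : ℝ) : ℂ) * I +
        (2 * Real.pi * I * ((inner ℝ (D⁻¹ • (x - (2 * t) • c)) ζ - t / D ^ 2 * ‖ζ‖ ^ 2 : ℝ) : ℂ)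
          - ((0 * ‖ζ‖ ^ 2 : ℝ) : ℂ)) := by
      push_cast
      ring
    rw [e2, Complex.exp_add]
    ring
  rw [key, norm_mul, Complex.norm_exp_ofReal_mul_I, one_mul]

lemma int_rescG (D : ℝ) (hD : 0 < D) (c : E 2) (G : E 2 → ℂ) :
    ∫ ζ, ‖rescG D c G ζ‖ ^ 2 = (D ^ 2)⁻¹ * ∫ η, ‖G η‖ ^ 2 := by
  unfold rescG
  have h1 := integral_affine (fun η : E 2 => ‖G η‖ ^ 2) c hD
  have h2 : ∀ ζ : E 2, ‖(((D ^ 2)⁻¹ : ℝ) : ℂ) * G (c + D⁻¹ • ζ)‖ ^ 2 = (((D ^ 2)⁻¹) ^ 2) * ‖G (c + D⁻¹ • ζ)‖ ^ 2 := by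
    intro ζ
    rw [norm_mul, mul_pow, Complex.norm_real, Real.norm_eq_abs, sq_abs]
  simp_rw [h2]
  rw [integral_const_mul, h1, smul_eq_mul]
  field_simp

lemma measurable_rescG (D : ℝ) (c : E 2) {G : E 2 → ℂ} (hG : Measurable G) : Measurable (rescG D c G) := by
  unfold rescG
  refine measurable_const.mul (hG.comp ?_)
  exact (measurable_id.const_smul D⁻¹).const_add c

lemma bdd_rescG (D : ℝ) (hD : 0 < D) (c : E 2) {G : E 2 → ℂ} (hG : ∃ b : ℝ, ∀ η, ‖G η‖ ≤ b) :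
    ∃ b : ℝ, ∀ η, ‖rescG D c G η‖ ≤ b := by
  obtain ⟨b, hb⟩ := hG
  refine ⟨(D ^ 2)⁻¹ * b, fun η => ?_⟩
  unfold rescG
  rw [norm_mul, Complex.norm_real, Real.norm_eq_abs, abs_of_pos (by positivity)]
  exact mul_le_mul_of_nonneg_left (hb _) (by positivity)

lemma rescG_ne {D : ℝ} {c : E 2} {G : E 2 → ℂ} {ζ : E 2} (h : rescG D c G ζ ≠ 0) : G (c + D⁻¹ • ζ) ≠ 0 := by
  intro h0
  apply h
  unfold rescG
  rw [h0, mul_zero]

/-! ### rotation -/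

lemma exists_rot {e : E 2} (he : ‖e‖ = 1) (i0 : Fin 2) :
    ∃ U : E 2 ≃ₗᵢ[ℝ] E 2, ∀ η, (U η) i0 = inner ℝ η e := by
  have hv : Orthonormal ℝ (({i0} : Set (Fin 2)).domRestrict fun _ : Fin 2 => e) := by
    refine ⟨fun i => he, fun i j hij => ?_⟩
    exact absurd (Subsingleton.elim i j) hij
  obtain ⟨b, hb⟩ := hv.exists_orthonormalBasis_extension_of_card_eq
    (by simp : Module.finrank ℝ (E 2) = Fintype.card (Fin 2))
  refine ⟨b.repr, fun η => ?_⟩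
  rw [b.repr_apply_apply, hb i0 rfl, real_inner_comm]

lemma evo_rot (U : E 2 ≃ₗᵢ[ℝ] E 2) (G : E 2 → ℂ) (x : E 2) (t : ℝ) :
    evo (fun η => G (U.symm η)) (U x) t 0 = evo G x t 0 := by
  unfold evo
  have hU : MeasurePreserving U volume volume := U.measurePreserving
  have hUe : MeasurableEmbedding U := U.toHomeomorph.measurableEmbedding
  rw [← hU.integral_comp hUe]
  refine integral_congr_ae (Filter.Eventually.of_forall fun η => ?_)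
  simp only [LinearIsometryEquiv.symm_apply_apply]
  rw [U.inner_map_map, U.norm_map]

lemma int_rot (U : E 2 ≃ₗᵢ[ℝ] E 2) (G : E 2 → ℂ) : ∫ η, ‖G (U.symm η)‖ ^ 2 = ∫ η, ‖G η‖ ^ 2 := by
  have hU : MeasurePreserving U volume volume := U.measurePreserving
  have hUe : MeasurableEmbedding U := U.toHomeomorph.measurableEmbedding
  rw [← hU.integral_comp hUe]
  simp only [LinearIsometryEquiv.symm_apply_apply]

lemma exists_strip_rot (θ : ℝ) : ∃ U : E 2 ≃ₗᵢ[ℝ] E 2, ∀ η, (U η) 1 = Vale.Agent.P122.C2.fn θ (fun i => η i) := by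
  obtain ⟨U, hU⟩ := exists_rot (e := WithLp.toLp 2 ![-Real.sin θ, Real.cos θ])
    (by
      rw [EuclideanSpace.norm_eq, Fin.sum_univ_two]
      simp [Real.sin_sq_add_cos_sq]) 1
  refine ⟨U, fun η => ?_⟩
  rw [hU, PiLp.inner_apply, Fin.sum_univ_two]
  simp [Vale.Agent.P122.C2.fn]

end Vale.Agent.P076.H23
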